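import Vale.Agent.Lib.P302.helper49.FastC

/-!
Exchange arguments for disjoint fitting triples in a multiset of lengths.
-/

namespace Vale.Agent.Lib.P302.helper49

theorem card_join_triples (B : Multiset (Multiset ℕ)) (h : ∀ b ∈ B, b.card = 3) :
    B.join.card = 3 * B.card := by
  induction B using Multiset.induction_on with
  | empty => simp
  | cons b B ih =>
    rw [Multiset.join_cons, Multiset.card_add, Multiset.card_cons,
      ih (fun c hc => h c (Multiset.mem_cons_of_mem hc)), h b (Multiset.mem_cons_self b B)]
    ring

theorem join_eq_add_erase {B : Multiset (Multiset ℕ)} {b : Multiset ℕ} (hb : b ∈ B) :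
    B.join = b + (B.erase b).join := by
  rw [← Multiset.join_cons, Multiset.cons_erase hb]

/-- If more than `3 T` items are present, the largest item may be left unmatched. -/
theorem tripleMatch_erase_max {L : ℕ} {M : Multiset ℕ} {T a : ℕ} (h : TripleMatch L M T)
    (ha : a ∈ M) (hmax : ∀ x ∈ M, x ≤ a) (hcard : 3 * T < M.card) :
    TripleMatch L (M.erase a) T := by
  obtain ⟨B, hBc, hBt, hBj⟩ := h
  have hle := Multiset.le_iff_count.mp hBj
  by_cases hcnt : Multiset.count a B.join < Multiset.count a M
  · refine ⟨B, hBc, hBt, ?_⟩
    rw [Multiset.le_iff_count]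
    intro x
    by_cases hx : x = a
    · subst hx
      rw [Multiset.count_erase_self]
      omega
    · rw [Multiset.count_erase_of_ne hx]
      exact hle x
  · have hcnt' : Multiset.count a B.join = Multiset.count a M := by
      have := hle a
      omega
    have hapos : 0 < Multiset.count a M := Multiset.count_pos.mpr ha
    have haB : a ∈ B.join := Multiset.count_pos.mp (by omega)
    obtain ⟨b, hb, hab⟩ := Multiset.mem_join.mp haB
    have hjb := join_eq_add_erase hb
    have hab1 : 0 < Multiset.count a b := Multiset.count_pos.mpr hab
    by_cases hT : T < B.card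
    · refine ⟨B.erase b, ?_, fun c hc => hBt c (Multiset.mem_of_mem_erase hc), ?_⟩
      · rw [Multiset.card_erase_of_mem hb, Nat.pred_eq_sub_one]
        omega
      · rw [Multiset.le_iff_count]
        intro x
        have h1 := hle x
        rw [hjb, Multiset.count_add] at h1
        by_cases hx : x = a
        · subst hx
          rw [Multiset.count_erase_self]
          omega
        · rw [Multiset.count_erase_of_ne hx]
          omega
    · have hc : B.card = T := by omega
      have hcj : B.join.card = 3 * T := by
        rw [card_join_triples B (fun c hc => (hBt c hc).1), hc]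
      have hex : ∃ x, Multiset.count x B.join < Multiset.count x M := by
        by_contra hcon
        push Not at hcon
        have hle2 : M ≤ B.join := Multiset.le_iff_count.mpr hcon
        have heq : M = B.join := le_antisymm hle2 hBj
        rw [heq] at hcard
        omega
      obtain ⟨x, hx⟩ := hex
      have hxa : x ≠ a := by
        intro he
        rw [he] at hx
        omega
      have hxM : x ∈ M := Multiset.count_pos.mp (by omega)
      have hxle : x ≤ a := hmax x hxM
      obtain ⟨hb3, hbL⟩ := hBt b hb
      have hsum : a + (b.erase a).sum = b.sum := Multiset.sum_erase hab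
      refine ⟨(x ::ₘ b.erase a) ::ₘ B.erase b, ?_, ?_, ?_⟩
      · rw [Multiset.card_cons, Multiset.card_erase_of_mem hb, Nat.pred_eq_sub_one]
        have : 0 < B.card := Multiset.card_pos_iff_exists_mem.mpr ⟨b, hb⟩
        omega
      · intro c hc
        rcases Multiset.mem_cons.mp hc with rfl | hc
        · constructor
          · rw [Multiset.card_cons, Multiset.card_erase_of_mem hab, Nat.pred_eq_sub_one]
            omega
          · rw [Multiset.sum_cons]
            omega
        · exact hBt c (Multiset.mem_of_mem_erase hc)
      · rw [Multiset.join_cons, Multiset.le_iff_count]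
        intro v
        have h1 := hle v
        rw [hjb, Multiset.count_add] at h1
        rw [Multiset.count_add, Multiset.count_cons]
        by_cases hva : v = a
        · subst hva
          rw [Multiset.count_erase_self, Multiset.count_erase_self, if_neg (Ne.symm hxa)]
          omega
        · rw [Multiset.count_erase_of_ne hva, Multiset.count_erase_of_ne hva]
          by_cases hvx : v = x
          · subst hvx
            rw [if_pos rfl]
            rw [hjb, Multiset.count_add] at hx
            omega
          · rw [if_neg hvx]
            omega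

/-- With exactly `3 T` items, `T` disjoint triples form a partition. -/
theorem perfect_of_tripleMatch {L : ℕ} {M : Multiset ℕ} {T : ℕ} (h : TripleMatch L M T)
    (hcard : M.card = 3 * T) :
    ∃ B : Multiset (Multiset ℕ), B.card = T ∧ (∀ b ∈ B, b.card = 3 ∧ b.sum ≤ L) ∧ B.join = M := by
  obtain ⟨B, hBc, hBt, hBj⟩ := h
  have hcj : B.join.card = 3 * B.card := card_join_triples B (fun c hc => (hBt c hc).1)
  have hle : B.join.card ≤ M.card := Multiset.card_le_card hBj
  have hc : B.card = T := by omega
  refine ⟨B, hc, hBt, Multiset.eq_of_le_of_card_le hBj ?_⟩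
  omega

/-- In a partition into fitting triples, the triple containing the largest item can be chosen so
that none of its items can be exchanged for a longer item of another triple. -/
theorem exists_swap_maximal {L : ℕ} {M : Multiset ℕ} {a : ℕ} (hmax : ∀ x ∈ M, x ≤ a) :
    ∀ (d : ℕ) (B : Multiset (Multiset ℕ)) (b : Multiset ℕ), b ∈ B → a ∈ b →
      (∀ c ∈ B, c.card = 3 ∧ c.sum ≤ L) → B.join = M → L - b.sum ≤ d →
      ∃ (B' : Multiset (Multiset ℕ)) (b' : Multiset ℕ), b' ∈ B' ∧ a ∈ b' ∧ B'.card = B.card ∧
        (∀ c ∈ B', c.card = 3 ∧ c.sum ≤ L) ∧ B'.join = M ∧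
        ∀ x ∈ b', ∀ x' ∈ (B'.erase b').join, x < x' → L + x < b'.sum + x' := by
  intro d
  induction d with
  | zero =>
    intro B b hb hab hBt hBj hd
    refine ⟨B, b, hb, hab, rfl, hBt, hBj, ?_⟩
    intro x hx x' hx' hlt
    have := (hBt b hb).2
    omega
  | succ d ih =>
    intro B b hb hab hBt hBj hd
    by_cases hm : ∀ x ∈ b, ∀ x' ∈ (B.erase b).join, x < x' → L + x < b.sum + x'
    · exact ⟨B, b, hb, hab, rfl, hBt, hBj, hm⟩
    · push Not at hm
      obtain ⟨x, hx, x', hx', hlt, hfit⟩ := hm
      obtain ⟨b2, hb2, hx'2⟩ := Multiset.mem_join.mp hx'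
      have hb2B : b2 ∈ B := Multiset.mem_of_mem_erase hb2
      obtain ⟨hb3, hbL⟩ := hBt b hb
      obtain ⟨hb23, hb2L⟩ := hBt b2 hb2B
      have hsum : x + (b.erase x).sum = b.sum := Multiset.sum_erase hx
      have hsum2 : x' + (b2.erase x').sum = b2.sum := Multiset.sum_erase hx'2
      have hj1 := join_eq_add_erase hb
      have hj2 := join_eq_add_erase hb2
      have hx'M : x' ∈ M := by
        rw [← hBj, hj1]
        exact Multiset.mem_add.mpr (Or.inr hx')
      have hxa : x ≠ a := by
        intro he
        have := hmax x' hx'M
        omega
      have hcardB : B.card = (B.erase b).card + 1 := by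
        rw [Multiset.card_erase_of_mem hb, Nat.pred_eq_sub_one]
        have : 0 < B.card := Multiset.card_pos_iff_exists_mem.mpr ⟨b, hb⟩
        omega
      have hcardB2 : (B.erase b).card = ((B.erase b).erase b2).card + 1 := by
        rw [Multiset.card_erase_of_mem hb2, Nat.pred_eq_sub_one]
        have : 0 < (B.erase b).card := Multiset.card_pos_iff_exists_mem.mpr ⟨b2, hb2⟩
        omega
      have hnew := ih ((x' ::ₘ b.erase x) ::ₘ (x ::ₘ b2.erase x') ::ₘ (B.erase b).erase b2)
        (x' ::ₘ b.erase x) (Multiset.mem_cons_self _ _)
        (Multiset.mem_cons_of_mem ((Multiset.mem_erase_of_ne (Ne.symm hxa)).mpr hab))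
        (by
          intro c hc
          rcases Multiset.mem_cons.mp hc with rfl | hc
          · constructor
            · rw [Multiset.card_cons, Multiset.card_erase_of_mem hx, Nat.pred_eq_sub_one]
              omega
            · rw [Multiset.sum_cons]
              omega
          · rcases Multiset.mem_cons.mp hc with rfl | hc
            · constructor
              · rw [Multiset.card_cons, Multiset.card_erase_of_mem hx'2, Nat.pred_eq_sub_one]
                omega
              · rw [Multiset.sum_cons]
                omega
            · exact hBt c (Multiset.mem_of_mem_erase (Multiset.mem_of_mem_erase hc)))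
        (by
          rw [Multiset.join_cons, Multiset.join_cons, ← hBj, hj1, hj2, ← add_assoc, ← add_assoc]
          congr 1
          rw [Multiset.cons_add, Multiset.add_cons, ← Multiset.cons_add, ← Multiset.add_cons,
            Multiset.cons_erase hx, Multiset.cons_erase hx'2])
        (by
          rw [Multiset.sum_cons]
          omega)
      obtain ⟨B', b', h1, h2, h3, h4, h5, h6⟩ := hnew
      refine ⟨B', b', h1, h2, ?_, h4, h5, h6⟩
      rw [h3, Multiset.card_cons, Multiset.card_cons]
      omega

end Vale.Agent.Lib.P302.helper49
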