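import Vale.Agent.Lib.P302.helper49.FastC

namespace Vale.Agent.Lib.P302.helper49

theorem card_le_three {L : ℕ} {b : Multiset ℕ} (hbig : ∀ x ∈ b, L < 4 * x) (hb : b.sum ≤ L) :
    b.card ≤ 3 := by
  have key : ∀ c : Multiset ℕ, (∀ x ∈ c, L < 4 * x) → L * c.card ≤ 4 * c.sum ∧
      (c ≠ 0 → L * c.card < 4 * c.sum) := by
    intro c
    induction c using Multiset.induction_on with
    | empty => intro _; simp
    | cons a c ih =>
      intro h
      have h1 := ih (fun x hx => h x (Multiset.mem_cons_of_mem hx))
      have h2 : L < 4 * a := h a (Multiset.mem_cons_self a c)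
      rw [Multiset.card_cons, Multiset.sum_cons]
      have h3 : L * (c.card + 1) = L * c.card + L := by ring
      constructor
      · omega
      · intro _
        omega
  by_contra hcon
  have h4 : 4 ≤ b.card := by omega
  have hne : b ≠ 0 := by
    intro h0
    rw [h0] at h4
    simp at h4
  have h5 := (key b hbig).2 hne
  have h6 : L * 4 ≤ L * b.card := Nat.mul_le_mul_left L h4
  omega

theorem card_join_le (B : Multiset (Multiset ℕ)) (h3 : ∀ b ∈ B, b.card ≤ 3) :
    B.join.card ≤ 2 * B.card + (B.filter (fun b => b.card = 3)).card := by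
  induction B using Multiset.induction_on with
  | empty => simp
  | cons b B ih =>
    have h1 := ih (fun c hc => h3 c (Multiset.mem_cons_of_mem hc))
    have h2 : b.card ≤ 3 := h3 b (Multiset.mem_cons_self b B)
    rw [Multiset.join_cons, Multiset.card_add, Multiset.card_cons, Multiset.filter_cons,
      Multiset.card_add]
    by_cases hb : b.card = 3
    · rw [if_pos hb]
      simp only [Multiset.card_singleton]
      omega
    · rw [if_neg hb]
      simp only [Multiset.card_zero]
      omega

theorem filter_join_le (B : Multiset (Multiset ℕ)) (p : Multiset ℕ → Prop) [DecidablePred p] :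
    (B.filter p).join ≤ B.join := by
  induction B using Multiset.induction_on with
  | empty => simp
  | cons b B ih =>
    rw [Multiset.filter_cons, Multiset.join_cons]
    by_cases hb : p b
    · rw [if_pos hb, Multiset.singleton_add, Multiset.join_cons]
      exact add_le_add le_rfl ih
    · rw [if_neg hb, zero_add]
      exact le_trans ih (Multiset.le_add_left _ _)

/-- If all items are longer than a quarter of the capacity, a packing into `K` bins contains
at least `card M - 2 K` bins with exactly three items. -/
theorem tripleMatch_of_packable {L : ℕ} {M : Multiset ℕ} {K : ℕ} (hbig : ∀ x ∈ M, L < 4 * x)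
    (h : Packable L M K) : TripleMatch L M (M.card - 2 * K) := by
  obtain ⟨B, hK, hL, hj⟩ := h
  have h3 : ∀ b ∈ B, b.card ≤ 3 := by
    intro b hb
    apply card_le_three (L := L) _ (hL b hb)
    intro x hx
    apply hbig
    rw [← hj]
    exact Multiset.mem_join.mpr ⟨b, hb, hx⟩
  refine ⟨B.filter (fun b => b.card = 3), ?_, ?_, ?_⟩
  · have h1 := card_join_le B h3
    rw [hj] at h1
    omega
  · intro b hb
    rw [Multiset.mem_filter] at hb
    exact ⟨hb.2, hL b hb.1⟩
  · rw [← hj]
    exact filter_join_le B _

/-- All checks needed for the triple-matching route, as one kernel-evaluable Boolean. -/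
def checkM (L smin : ℕ) (ws : List (List ℕ × ℕ)) (ts : List (ℕ × ℕ)) (fuel K : ℕ) : Bool :=
  decide ((ts.map Prod.fst).Nodup) && ts.all (fun t => Nat.ble smin t.1 && Nat.blt L (4 * t.1))
    && ws.all (fun wd => validC3 L ts wd)
    && refuteM L smin ws fuel ts ((ts.map Prod.snd).sum - 2 * K)

/-- Soundness of `checkM`: the items of `ts` cannot be packed into `K` bins of capacity `L`. -/
theorem not_packable_of_checkM {L smin : ℕ} {ws : List (List ℕ × ℕ)} {ts : List (ℕ × ℕ)}
    {fuel K : ℕ} (h : checkM L smin ws ts fuel K = true) : ¬ Packable L (items ts) K := by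
  simp only [checkM, Bool.and_eq_true, decide_eq_true_eq, List.all_eq_true, Nat.ble_eq,
    Nat.blt_eq] at h
  obtain ⟨⟨⟨hnd, hall⟩, hws⟩, href⟩ := h
  intro hp
  have hbig : ∀ x ∈ items ts, L < 4 * x := by
    intro x hx
    obtain ⟨t, ht, rfl⟩ := List.mem_map.mp (mem_items hx)
    exact (hall t ht).2
  have htm := tripleMatch_of_packable hbig hp
  rw [card_items] at htm
  exact refuteM_sound hnd (fun t ht => (hall t ht).1)
    (fun wd hwd => validC3_sound hnd (hws wd hwd)) fuel ts _ rfl le_rfl href htm

/-- A packing given by an assignment of items to bins yields `Packable`. -/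
theorem packable_of_assignment {n K L : ℕ} (l : Fin n → ℕ) (f : Fin n → Fin K)
    (hf : ∀ j, (∑ i with f i = j, l i) ≤ L) :
    Packable L ((Finset.univ : Finset (Fin n)).val.map l) K := by
  refine ⟨(Finset.univ : Finset (Fin K)).val.map
    (fun j => ((Finset.univ : Finset (Fin n)).filter (fun i => f i = j)).val.map l), ?_, ?_, ?_⟩
  · simp
  · intro b hb
    obtain ⟨j, _, rfl⟩ := Multiset.mem_map.mp hb
    exact hf j
  · have h1 := Finset.disjiUnion_filter_eq_of_maps_to (s := (Finset.univ : Finset (Fin n)))
      (t := (Finset.univ : Finset (Fin K))) (f := f) (fun x _ => Finset.mem_univ _)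
    have h2 := congrArg Finset.val h1
    rw [Finset.disjiUnion_val] at h2
    conv_rhs => rw [← h2]
    rw [Multiset.map_bind]
    rfl

end Vale.Agent.Lib.P302.helper49
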