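import Vale.Agent.Lib.P302.helper49.PDefs
import Vale.Agent.Lib.P302.helper49.Exch
import Vale.Agent.Lib.P302.helper49.Triple

/-!
Soundness of the fast refutation `refuteP` and the resulting check `checkP`.
-/

namespace Vale.Agent.Lib.P302.helper49

theorem total_eq_card (ts : List (ℕ × ℕ)) : total ts = (items ts).card := by
  induction ts with
  | nil => rfl
  | cons t ts ih =>
    obtain ⟨s, n⟩ := t
    simp [total, ih]

theorem sortedDesc_spec : ∀ ts : List (ℕ × ℕ), sortedDesc ts = true →
    (ts.map Prod.fst).Pairwise (fun a b => b < a)
  | [] => fun _ => by simp
  | [(s, n)] => fun _ => by simp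
  | (s, n) :: (s2, n2) :: r => fun h => by
    simp only [sortedDesc, Bool.and_eq_true, Nat.blt_eq] at h
    obtain ⟨h1, h2⟩ := h
    have ih := sortedDesc_spec ((s2, n2) :: r) (by
      simp only [sortedDesc, Bool.and_eq_true]
      exact h2)
    rw [List.map_cons, List.pairwise_cons]
    refine ⟨?_, ih⟩
    intro x hx
    rw [List.map_cons, List.mem_cons] at hx
    rcases hx with rfl | hx
    · exact h1
    · rw [List.map_cons, List.pairwise_cons] at ih
      have := ih.1 x hx
      omega

theorem items_reverseAux : ∀ (acc l : List (ℕ × ℕ)),
    items (List.reverseAux acc l) = items acc + items l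
  | [], l => by simp [List.reverseAux]
  | t :: acc, l => by
    rw [List.reverseAux, items_reverseAux acc (t :: l), items_cons, items_cons]
    abel

theorem fst_reverseAux (acc : List (ℕ × ℕ)) {l l' : List (ℕ × ℕ)}
    (h : l'.map Prod.fst = l.map Prod.fst) :
    (List.reverseAux acc l').map Prod.fst = (List.reverseAux acc l).map Prod.fst := by
  rw [List.reverseAux_eq, List.reverseAux_eq, List.map_append, List.map_append, h]

/-- With lengths in decreasing order, `takeFirst` returns a longest item. -/
theorem takeFirst_max : ∀ {ts : List (ℕ × ℕ)} {a : ℕ} {ts' : List (ℕ × ℕ)},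
    (ts.map Prod.fst).Pairwise (fun a b => b < a) → takeFirst ts = some (a, ts') →
    ∀ x ∈ items ts, x ≤ a
  | [], _, _ => fun _ h => by simp [takeFirst] at h
  | (s, 0) :: r, a, ts' => fun hs h x hx => by
    simp only [takeFirst, Option.map_eq_some_iff] at h
    obtain ⟨⟨s1, ts1⟩, h1, h2⟩ := h
    simp only [Prod.mk.injEq] at h2
    obtain ⟨rfl, _⟩ := h2
    rw [List.map_cons, List.pairwise_cons] at hs
    have hx' : x ∈ items r := by simpa using hx
    exact takeFirst_max hs.2 h1 x hx'
  | (s, n + 1) :: r, a, ts' => fun hs h x hx => by
    simp only [takeFirst, Option.some.injEq, Prod.mk.injEq] at h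
    obtain ⟨rfl, _⟩ := h
    rw [List.map_cons, List.pairwise_cons] at hs
    rw [items_cons, Multiset.mem_add] at hx
    rcases hx with hx | hx
    · exact le_of_eq (Multiset.eq_of_mem_replicate hx)
    · exact le_of_lt (hs.1 x (mem_items hx))

theorem firstFit_none {bound : ℕ} : ∀ {l : List (ℕ × ℕ)}, firstFit bound l = none →
    ∀ x ∈ items l, bound < x
  | [] => fun _ x hx => by simp at hx
  | (s, 0) :: r => fun h x hx => by
    simp only [firstFit, Option.map_eq_none_iff] at h
    have hx' : x ∈ items r := by simpa using hx
    exact firstFit_none h x hx'
  | (s, n + 1) :: r => fun h x hx => by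
    simp only [firstFit] at h
    cases hb : Nat.ble s bound with
    | true => rw [hb] at h; simp at h
    | false =>
      rw [hb] at h
      simp only [cond_false, Option.map_eq_none_iff] at h
      have hsb : bound < s := by
        by_contra hcon
        have : Nat.ble s bound = true := Nat.ble_eq.mpr (by omega)
        rw [hb] at this
        exact Bool.false_ne_true this
      rw [items_cons, Multiset.mem_add] at hx
      rcases hx with hx | hx
      · rw [Multiset.eq_of_mem_replicate hx]
        exact hsb
      · exact firstFit_none h x hx

theorem firstFit_some {bound : ℕ} : ∀ {l : List (ℕ × ℕ)} {z : ℕ} {l' : List (ℕ × ℕ)},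
    firstFit bound l = some (z, l') →
    l'.map Prod.fst = l.map Prod.fst ∧ items l = z ::ₘ items l' ∧ z ≤ bound ∧
      ((l.map Prod.fst).Pairwise (fun a b => b < a) → ∀ x ∈ items l, x ≤ bound → x ≤ z)
  | [], _, _ => fun h => by simp [firstFit] at h
  | (s, 0) :: r, z, l' => fun h => by
    simp only [firstFit, Option.map_eq_some_iff] at h
    obtain ⟨⟨z1, l1⟩, h1, h2⟩ := h
    simp only [Prod.mk.injEq] at h2
    obtain ⟨rfl, rfl⟩ := h2
    obtain ⟨e1, e2, e3, e4⟩ := firstFit_some h1
    refine ⟨by simp [e1], by simp [e2], e3, ?_⟩
    intro hs x hx hxb
    rw [List.map_cons, List.pairwise_cons] at hs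
    have hx' : x ∈ items r := by simpa using hx
    exact e4 hs.2 x hx' hxb
  | (s, n + 1) :: r, z, l' => fun h => by
    simp only [firstFit] at h
    cases hb : Nat.ble s bound with
    | true =>
      rw [hb] at h
      simp only [cond_true, Option.some.injEq, Prod.mk.injEq] at h
      obtain ⟨rfl, rfl⟩ := h
      have hsb : s ≤ bound := Nat.ble_eq.mp hb
      refine ⟨by simp, by simp [Multiset.replicate_succ], hsb, ?_⟩
      intro hs x hx _
      rw [List.map_cons, List.pairwise_cons] at hs
      rw [items_cons, Multiset.mem_add] at hx
      rcases hx with hx | hx
      · exact le_of_eq (Multiset.eq_of_mem_replicate hx)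
      · exact le_of_lt (hs.1 x (mem_items hx))
    | false =>
      rw [hb] at h
      simp only [cond_false, Option.map_eq_some_iff] at h
      obtain ⟨⟨z1, l1⟩, h1, h2⟩ := h
      simp only [Prod.mk.injEq] at h2
      obtain ⟨rfl, rfl⟩ := h2
      obtain ⟨e1, e2, e3, e4⟩ := firstFit_some h1
      have hsb : bound < s := by
        by_contra hcon
        have : Nat.ble s bound = true := Nat.ble_eq.mpr (by omega)
        rw [hb] at this
        exact Bool.false_ne_true this
      refine ⟨by simp [e1], ?_, e3, ?_⟩
      · rw [items_cons, items_cons, e2, Multiset.add_cons]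
      · intro hs x hx hxb
        rw [List.map_cons, List.pairwise_cons] at hs
        rw [items_cons, Multiset.mem_add] at hx
        rcases hx with hx | hx
        · rw [Multiset.eq_of_mem_replicate hx] at hxb
          omega
        · exact e4 hs.2 x hx hxb

theorem domAcc_spec {L a y z : ℕ} : ∀ {acc : List (ℕ × ℕ)}, domAcc L a y z acc = true →
    ∃ x ∈ items acc, y < x ∧ a + x + z ≤ L
  | [] => fun h => by simp [domAcc] at h
  | (s, 0) :: r => fun h => by
    simp only [domAcc] at h
    obtain ⟨x, hx, h1⟩ := domAcc_spec h
    exact ⟨x, by simpa using hx, h1⟩
  | (s, n + 1) :: r => fun h => by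
    simp only [domAcc, Bool.and_eq_true, Nat.blt_eq, Nat.ble_eq] at h
    refine ⟨s, ?_, h.1, h.2⟩
    rw [items_cons, Multiset.mem_add]
    exact Or.inl (Multiset.mem_replicate.mpr ⟨by omega, rfl⟩)

theorem items_full (acc : List (ℕ × ℕ)) (s n : ℕ) (r : List (ℕ × ℕ)) :
    items (List.reverseAux acc ((s, n + 1) :: r)) = items acc + s ::ₘ items ((s, n) :: r) := by
  rw [items_reverseAux, items_cons, items_cons, Multiset.replicate_succ, Multiset.cons_add]

/-- Specification of `goY`: every admissible pair `y ≥ z` of partners of `a` is either dominated
(one of the two can be exchanged for a longer remaining item) or passed to `k`. -/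
theorem goY_spec {L a : ℕ} {k : List (ℕ × ℕ) → Bool} :
    ∀ (l acc : List (ℕ × ℕ)), goY L a k acc l = true →
      (l.map Prod.fst).Pairwise (fun a b => b < a) →
      (∀ x ∈ items acc, ∀ y ∈ l.map Prod.fst, y < x) →
      ∀ y z : ℕ, y ∈ items l → z ≤ y → y ::ₘ {z} ≤ items (List.reverseAux acc l) →
        a + y + z ≤ L →
        (∃ x' ∈ items (List.reverseAux acc l) - y ::ₘ {z},
            (z < x' ∧ a + y + x' ≤ L) ∨ (y < x' ∧ a + x' + z ≤ L)) ∨
        ∃ res : List (ℕ × ℕ), res.map Prod.fst = (List.reverseAux acc l).map Prod.fst ∧
          items res = items (List.reverseAux acc l) - y ::ₘ {z} ∧ k res = true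
  | [], acc => fun _ _ _ y z hy => by simp at hy
  | (s, 0) :: r, acc => fun h hs hacc y z hy hzy hle hfit => by
    simp only [goY] at h
    rw [List.map_cons, List.pairwise_cons] at hs
    have hy' : y ∈ items r := by simpa using hy
    have hacc' : ∀ x ∈ items ((s, 0) :: acc), ∀ y ∈ r.map Prod.fst, y < x := by
      intro x hx y hy
      have hx' : x ∈ items acc := by simpa using hx
      exact hacc x hx' y (List.mem_cons_of_mem _ hy)
    exact goY_spec r ((s, 0) :: acc) h hs.2 hacc' y z hy' hzy hle hfit
  | (s, n + 1) :: r, acc => fun h hs hacc y z hy hzy hle hfit => by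
    simp only [goY, Bool.and_eq_true] at h
    obtain ⟨h1, h2⟩ := h
    have hs0 := hs
    rw [List.map_cons, List.pairwise_cons] at hs
    obtain ⟨hs1, hs2⟩ := hs
    by_cases hys : y = s
    · subst hys
      have hnl : Nat.blt L (a + y) = false := by
        cases hb : Nat.blt L (a + y) with
        | false => rfl
        | true =>
          have := Nat.blt_eq.mp hb
          omega
      rw [hnl] at h1
      simp only [cond_false] at h1
      have hfull := items_full acc y n r
      have h0 : ∀ v, v ≤ y → Multiset.count v (items acc) = 0 := by
        intro v hv
        apply Multiset.count_eq_zero_of_notMem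
        intro hm
        have := hacc v hm y (by simp)
        omega
      have hzmem : z ∈ items ((y, n) :: r) := by
        have hc := Multiset.le_iff_count.mp hle z
        rw [hfull, Multiset.count_add, h0 z hzy, Multiset.count_cons, Multiset.count_cons,
          Multiset.count_singleton_self] at hc
        apply Multiset.count_pos.mp
        omega
      cases hff : firstFit (L - (a + y)) ((y, n) :: r) with
      | none =>
        have := firstFit_none hff z hzmem
        omega
      | some p =>
        obtain ⟨zf, suf⟩ := p
        rw [hff] at h1
        simp only [Bool.or_eq_true] at h1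
        obtain ⟨e1, e2, e3, e4⟩ := firstFit_some hff
        have hzle : z ≤ zf := e4 (by simpa using hs0) z hzmem (by omega)
        rcases Nat.lt_or_eq_of_le hzle with hlt | heq
        · left
          refine ⟨zf, ?_, Or.inl ⟨hlt, by omega⟩⟩
          apply Multiset.count_pos.mp
          rw [hfull, e2, Multiset.count_sub, Multiset.count_add, Multiset.count_cons,
            Multiset.count_cons, Multiset.count_cons, Multiset.count_singleton]
          have hne : zf ≠ z := by omega
          simp only [if_neg hne, if_true]
          omega
        · subst heq
          rcases h1 with h1 | h1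
          · obtain ⟨x, hx, hyx, hfit2⟩ := domAcc_spec h1
            left
            refine ⟨x, ?_, Or.inr ⟨hyx, hfit2⟩⟩
            apply Multiset.count_pos.mp
            have hxpos : 0 < Multiset.count x (items acc) := Multiset.count_pos.mpr hx
            rw [hfull, Multiset.count_sub, Multiset.count_add, Multiset.count_cons,
              Multiset.count_cons, Multiset.count_singleton]
            have hne1 : x ≠ y := by omega
            have hne2 : x ≠ z := by omega
            simp only [if_neg hne1, if_neg hne2]
            omega
          · right
            refine ⟨List.reverseAux acc suf, fst_reverseAux acc (e1.trans (by simp)), ?_, h1⟩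
            rw [items_reverseAux, hfull, e2]
            ext v
            rw [Multiset.count_sub, Multiset.count_add, Multiset.count_add, Multiset.count_cons,
              Multiset.count_cons, Multiset.count_cons, Multiset.count_singleton]
            omega
    · have hyr : y ∈ items r := by
        rw [items_cons, Multiset.mem_add] at hy
        rcases hy with hy | hy
        · exact absurd (Multiset.eq_of_mem_replicate hy) hys
        · exact hy
      have hacc' : ∀ x ∈ items ((s, n + 1) :: acc), ∀ y ∈ r.map Prod.fst, y < x := by
        intro x hx y hy
        rw [items_cons, Multiset.mem_add] at hx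
        rcases hx with hx | hx
        · rw [Multiset.eq_of_mem_replicate hx]
          exact hs1 y hy
        · exact hacc x hx y (List.mem_cons_of_mem _ hy)
      exact goY_spec r ((s, n + 1) :: acc) h2 hs2 hacc' y z hyr hzy hle hfit

theorem refuteP_sound {L : ℕ} {ws : List (List ℕ × ℕ)} {ts0 : List (ℕ × ℕ)}
    (hsd : (ts0.map Prod.fst).Pairwise (fun a b => b < a))
    (hws : ∀ wd ∈ ws, CoverValid L ts0 wd) :
    ∀ (fuel : ℕ) (ts : List (ℕ × ℕ)) (T : ℕ), ts.map Prod.fst = ts0.map Prod.fst →
      items ts ≤ items ts0 → refuteP L ws fuel ts T = true →
      ¬ TripleMatch L (items ts) T := by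
  have hnd : (ts0.map Prod.fst).Nodup := by
    apply List.Pairwise.imp _ hsd
    intro a b hab
    omega
  intro fuel
  induction fuel with
  | zero =>
    intro ts T _ _ h
    simp [refuteP] at h
  | succ fuel ih =>
    intro ts T hf hle h
    cases T with
    | zero => simp [refuteP] at h
    | succ T' =>
      intro hTM
      rw [refuteP] at h
      rw [Bool.or_eq_true] at h
      rcases h with h | h
      · obtain ⟨B, hBc, hBt, hBj⟩ := hTM
        rw [List.any_eq_true] at h
        obtain ⟨wd, hwd, hlt⟩ := h
        have hlt' : dotT wd.1 ts < (T' + 1) * wd.2 := Nat.blt_eq.mp hlt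
        have h1 : dotT wd.1 ts = Wt wd.1 ts0 (items ts) := dotT_eq_Wt wd.1 hnd hf
        have h2 : Wt wd.1 ts0 B.join ≤ Wt wd.1 ts0 (items ts) := Wt_le _ _ hBj
        have h3 : (B.map (Wt wd.1 ts0)).card • wd.2 ≤ (B.map (Wt wd.1 ts0)).sum := by
          apply Multiset.card_nsmul_le_sum
          intro x hx
          obtain ⟨b, hb, rfl⟩ := Multiset.mem_map.mp hx
          exact hws wd hwd b
            (le_trans (le_join_of_mem hb) (le_trans hBj hle)) (hBt b hb).1 (hBt b hb).2
        rw [Multiset.card_map, smul_eq_mul, ← Wt_join] at h3
        have h4 : (T' + 1) * wd.2 ≤ B.card * wd.2 := Nat.mul_le_mul_right _ hBc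
        omega
      · rw [force_eq] at h
        have hcardts : total ts = (items ts).card := total_eq_card ts
        cases hb1 : Nat.blt (total ts) (3 * (T' + 1)) with
        | true =>
          obtain ⟨B, hBc, hBt, hBj⟩ := hTM
          have hlt := Nat.blt_eq.mp hb1
          have hcj : B.join.card = 3 * B.card :=
            card_join_triples B (fun c hc => (hBt c hc).1)
          have hle2 : B.join.card ≤ (items ts).card := Multiset.card_le_card hBj
          omega
        | false =>
          rw [hb1] at h
          simp only [cond_false] at h
          have hge : 3 * (T' + 1) ≤ total ts := by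
            by_contra hcon
            have : Nat.blt (total ts) (3 * (T' + 1)) = true := Nat.blt_eq.mpr (by omega)
            rw [hb1] at this
            exact Bool.false_ne_true this
          cases hT : takeFirst ts with
          | none =>
            have h0 := takeFirst_none hT
            rw [h0] at hcardts
            simp at hcardts
            omega
          | some p =>
            obtain ⟨a, ts'⟩ := p
            rw [hT] at h
            simp only at h
            obtain ⟨hf', hit⟩ := takeFirst_some hT
            have hsd' : (ts.map Prod.fst).Pairwise (fun a b => b < a) := by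
              rw [hf]
              exact hsd
            have hmax := takeFirst_max hsd' hT
            have hle' : items ts' ≤ items ts0 := by
              refine le_trans ?_ hle
              rw [hit]
              exact Multiset.le_cons_self _ _
            have haM : a ∈ items ts := by
              rw [hit]
              exact Multiset.mem_cons_self _ _
            cases hb2 : Nat.blt (3 * (T' + 1)) (total ts) with
            | true =>
              rw [hb2] at h
              simp only [cond_true] at h
              have hlt := Nat.blt_eq.mp hb2
              have hTM' := tripleMatch_erase_max hTM haM hmax (by omega)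
              rw [hit, Multiset.erase_cons_head] at hTM'
              exact ih ts' (T' + 1) (hf'.trans hf) hle' h hTM'
            | false =>
              rw [hb2] at h
              simp only [cond_false] at h
              have heq : (items ts).card = 3 * (T' + 1) := by
                have : ¬ 3 * (T' + 1) < total ts := by
                  intro hcon
                  have : Nat.blt (3 * (T' + 1)) (total ts) = true := Nat.blt_eq.mpr hcon
                  rw [hb2] at this
                  exact Bool.false_ne_true this
                omega
              obtain ⟨B, hBc, hBt, hBj⟩ := perfect_of_tripleMatch hTM heq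
              have haB : a ∈ B.join := by
                rw [hBj]
                exact haM
              obtain ⟨b, hb, hab⟩ := Multiset.mem_join.mp haB
              obtain ⟨B', b', hb', hab', hc', hBt', hBj', hsw⟩ :=
                exists_swap_maximal hmax (L - b.sum) B b hb hab hBt hBj le_rfl
              obtain ⟨c, rfl⟩ := Multiset.exists_cons_of_mem hab'
              obtain ⟨hb3, hbL⟩ := hBt' _ hb'
              rw [Multiset.card_cons] at hb3
              have hc2 : c.card = 2 := by omega
              obtain ⟨p, q, hpq⟩ := Multiset.card_eq_two.mp hc2
              have hex : ∃ y z : ℕ, z ≤ y ∧ c = y ::ₘ {z} := by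
                rcases le_total q p with hqp | hpq'
                · exact ⟨p, q, hqp, hpq⟩
                · exact ⟨q, p, hpq', by rw [hpq, Multiset.pair_comm]; rfl⟩
              obtain ⟨y, z, hzy, rfl⟩ := hex
              have hj := join_eq_add_erase hb'
              rw [hBj', hit, Multiset.cons_add] at hj
              have hj2 : items ts' = y ::ₘ {z} + (B'.erase (a ::ₘ y ::ₘ {z})).join :=
                (Multiset.cons_inj_right a).mp hj
              have hrest : (B'.erase (a ::ₘ y ::ₘ {z})).join = items ts' - y ::ₘ {z} := by
                rw [hj2]
                simp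
              have hyz : y ::ₘ {z} ≤ items ts' := by
                rw [hj2]
                exact Multiset.le_add_right _ _
              have hymem : y ∈ items ts' :=
                Multiset.mem_of_le hyz (Multiset.mem_cons_self _ _)
              have hsum : a + y + z ≤ L := by
                simp only [Multiset.sum_cons, Multiset.sum_singleton] at hbL
                omega
              have hsd'' : (ts'.map Prod.fst).Pairwise (fun a b => b < a) := by
                rw [hf']
                exact hsd'
              have hspec := goY_spec ts' [] h hsd'' (by simp) y z hymem hzy hyz hsum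
              simp only [List.reverseAux] at hspec
              rcases hspec with ⟨x', hx', hx'2⟩ | ⟨res, hr1, hr2, hr3⟩
              · rw [← hrest] at hx'
                have hbs : (a ::ₘ y ::ₘ {z}).sum = a + y + z := by
                  simp only [Multiset.sum_cons, Multiset.sum_singleton]
                  omega
                rcases hx'2 with ⟨hlt, hfit⟩ | ⟨hlt, hfit⟩
                · have := hsw z (by simp) x' hx' hlt
                  omega
                · have := hsw y (by simp) x' hx' hlt
                  omega
              · refine ih res T' (hr1.trans (hf'.trans hf)) ?_ hr3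
                  ⟨B'.erase (a ::ₘ y ::ₘ {z}), ?_, ?_, ?_⟩
                · rw [hr2]
                  exact le_trans (Multiset.sub_le_self _ _) hle'
                · rw [Multiset.card_erase_of_mem hb', Nat.pred_eq_sub_one]
                  omega
                · intro c hc
                  exact hBt' c (Multiset.mem_of_mem_erase hc)
                · rw [hr2, hrest]

/-- All checks needed for the triple-matching route with the fast refuter, as one
kernel-evaluable Boolean.  The types must be listed in strictly decreasing order of length. -/
def checkP (L : ℕ) (ws : List (List ℕ × ℕ)) (ts : List (ℕ × ℕ)) (fuel K : ℕ) : Bool :=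
  sortedDesc ts && ts.all (fun t => Nat.blt L (4 * t.1))
    && ws.all (fun wd => validC3 L ts wd)
    && refuteP L ws fuel ts (total ts - 2 * K)

/-- Soundness of `checkP`: the items of `ts` cannot be packed into `K` bins of capacity `L`. -/
theorem not_packable_of_checkP {L : ℕ} {ws : List (List ℕ × ℕ)} {ts : List (ℕ × ℕ)}
    {fuel K : ℕ} (h : checkP L ws ts fuel K = true) : ¬ Packable L (items ts) K := by
  simp only [checkP, Bool.and_eq_true, List.all_eq_true, Nat.blt_eq] at h
  obtain ⟨⟨⟨hsd, hall⟩, hws⟩, href⟩ := h
  have hsd' := sortedDesc_spec ts hsd
  have hnd : (ts.map Prod.fst).Nodup := by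
    apply List.Pairwise.imp _ hsd'
    intro a b hab
    omega
  intro hp
  have hbig : ∀ x ∈ items ts, L < 4 * x := by
    intro x hx
    obtain ⟨t, ht, rfl⟩ := List.mem_map.mp (mem_items hx)
    exact hall t ht
  have htm := tripleMatch_of_packable hbig hp
  rw [← total_eq_card] at htm
  exact refuteP_sound hsd' (fun wd hwd => validC3_sound hnd (hws wd hwd)) fuel ts _ rfl le_rfl
    href htm

end Vale.Agent.Lib.P302.helper49
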