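import Mathlib

/-!
Kernel-evaluable refutation procedures for bin packing (cutting stock) instances with
integer lengths.  An instance is a capacity `L` and a list of types `(length, multiplicity)`.

* `refute`  : exhaustive bin-completion search showing that no packing into `K` bins exists.
* `refuteM` : search showing that there are no `T` pairwise disjoint triples of items, each
  of total length at most `L`.

Both are pruned by integer weight vectors which are validated by `validW` / `validC`.
-/

namespace Vale.Agent.Lib.P302.helper49

/-- `allUpTo n f` holds iff `f i` holds for every `i ≤ n`. -/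
def allUpTo : ℕ → (ℕ → Bool) → Bool
  | 0, f => f 0
  | n + 1, f => f (n + 1) && allUpTo n f

/-- `force n f` is `f n`; it makes kernel evaluation compute the number `n` first. -/
def force {α : Type} (n : ℕ) (f : ℕ → α) : α :=
  match n with
  | 0 => f 0
  | Nat.succ k => f (Nat.succ k)

/-- Enumerate every way of removing at most `slots` items of total length at most `cap`
from the types `ts`; the callback receives the unused slots, the unused capacity and the
residual types.  When `cap < smin` (a lower bound for all lengths) nothing more can be removed. -/
def allPats (smin : ℕ) : ℕ → ℕ → List (ℕ × ℕ) → (ℕ → ℕ → List (ℕ × ℕ) → Bool) → Bool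
  | slots, cap, [], k => k slots cap []
  | slots, cap, (s, n) :: ts, k =>
      if slots = 0 ∨ cap < smin then k slots cap ((s, n) :: ts)
      else allUpTo n (fun c =>
        if c ≤ slots ∧ c * s ≤ cap then
          force (slots - c) (fun sl1 => force (cap - c * s) (fun cp1 => force (n - c) (fun n1 =>
            allPats smin sl1 cp1 ts (fun sl cp res => k sl cp ((s, n1) :: res)))))
        else true)

/-- The length of the first type with positive multiplicity, and the types with one item of
that type removed. -/
def takeFirst : List (ℕ × ℕ) → Option (ℕ × List (ℕ × ℕ))
  | [] => none
  | (s, 0) :: ts => (takeFirst ts).map (fun p => (p.1, (s, 0) :: p.2))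
  | (s, n + 1) :: _ts => some (s, (s, n) :: _ts)

/-- Total weight of the items of `ts` for a weight vector aligned with the types. -/
def dotT : List ℕ → List (ℕ × ℕ) → ℕ
  | w :: ws, (_, n) :: ts => w * n + dotT ws ts
  | _, _ => 0

/-- `(w, D)` is a packing weight: every pattern (sub-multiset of the items of `ts0` of total
length at most `L`) has weight at most `D`. -/
def validW (L smin : ℕ) (ts0 : List (ℕ × ℕ)) (wd : List ℕ × ℕ) : Bool :=
  force (dotT wd.1 ts0) (fun tot =>
    allPats smin L L ts0 (fun _ _ res => tot ≤ wd.2 + dotT wd.1 res))

/-- `(w, D)` is a covering weight: every triple of items of `ts0` of total length at most `L`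
has weight at least `D`. -/
def validC (L smin : ℕ) (ts0 : List (ℕ × ℕ)) (wd : List ℕ × ℕ) : Bool :=
  force (dotT wd.1 ts0) (fun tot =>
    allPats smin 3 L ts0 (fun sl _ res => sl != 0 || wd.2 + dotT wd.1 res ≤ tot))

/-- Refutation of the existence of a packing of the items of `ts` into `K` bins of capacity `L`. -/
def refute (L smin : ℕ) (ws : List (List ℕ × ℕ)) : ℕ → List (ℕ × ℕ) → ℕ → Bool
  | 0, _, _ => false
  | fuel + 1, ts, K =>
      ws.any (fun wd => K * wd.2 < dotT wd.1 ts) ||
      match takeFirst ts with
      | none => false
      | some (s, ts') =>
          match K with
          | 0 => true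
          | K' + 1 =>
              if L < s then true
              else allPats smin L (L - s) ts' (fun _ cp res =>
                res.any (fun t => t.2 != 0 && t.1 ≤ cp) || refute L smin ws fuel res K')

/-- Refutation of the existence of `T` pairwise disjoint triples of items of `ts`, each of
total length at most `L`. -/
def refuteM (L smin : ℕ) (ws : List (List ℕ × ℕ)) : ℕ → List (ℕ × ℕ) → ℕ → Bool
  | 0, _, _ => false
  | fuel + 1, ts, T =>
      match T with
      | 0 => false
      | T' + 1 =>
          ws.any (fun wd => dotT wd.1 ts < (T' + 1) * wd.2) ||
          match takeFirst ts with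
          | none => true
          | some (s, ts') =>
              refuteM L smin ws fuel ts' (T' + 1) &&
              (if L < s then true
               else allPats smin 2 (L - s) ts' (fun sl _ res =>
                 sl != 0 || refuteM L smin ws fuel res T'))

end Vale.Agent.Lib.P302.helper49
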