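import Vale.Agent.Lib.P302.helper49.Perfect

/-!
The fast refutation `refuteP` extended by cuts.  A cut is a number `T` together with a list
`c` of lengths for which it is already known that `c` does not contain `T` pairwise disjoint
fitting triples.  A search node whose items dominate `c` pointwise is refuted at once, because
shrinking items keeps a triple matching.
-/

namespace Vale.Agent.Lib.P302.helper49

theorem exists_join_rel {r : ℕ → ℕ → Prop} (B : Multiset (Multiset ℕ)) :
    ∀ C : Multiset ℕ, Multiset.Rel r B.join C →
      ∃ B' : Multiset (Multiset ℕ), Multiset.Rel (Multiset.Rel r) B B' ∧ B'.join = C := by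
  induction B using Multiset.induction_on with
  | empty =>
    intro C h
    rw [Multiset.join_zero, Multiset.rel_zero_left] at h
    exact ⟨0, Multiset.Rel.zero, by rw [h, Multiset.join_zero]⟩
  | cons b B ih =>
    intro C h
    rw [Multiset.join_cons, Multiset.rel_add_left] at h
    obtain ⟨C1, C2, h1, h2, rfl⟩ := h
    obtain ⟨B', hB', hj⟩ := ih C2 h2
    exact ⟨C1 ::ₘ B', Multiset.Rel.cons h1 hB', by rw [Multiset.join_cons, hj]⟩

/-- Shrinking the items pointwise keeps a triple matching. -/
theorem tripleMatch_of_rel {L : ℕ} {M C : Multiset ℕ} {T : ℕ} (h : TripleMatch L M T)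
    (hr : Multiset.Rel (fun x y => y ≤ x) M C) : TripleMatch L C T := by
  obtain ⟨B, hBc, hBt, hBj⟩ := h
  obtain ⟨R, rfl⟩ := Multiset.le_iff_exists_add.mp hBj
  rw [Multiset.rel_add_left] at hr
  obtain ⟨C1, C2, h1, _, rfl⟩ := hr
  obtain ⟨B', hB', hj⟩ := exists_join_rel B C1 h1
  refine ⟨B', ?_, ?_, ?_⟩
  · rw [← Multiset.card_eq_card_of_rel hB']
    exact hBc
  · intro b' hb'
    obtain ⟨b, hb, hbb⟩ := Multiset.exists_mem_of_rel_of_mem (Multiset.rel_flip.mpr hB') hb'
    have hrel : Multiset.Rel (fun x y => y ≤ x) b b' := hbb
    obtain ⟨h3, hs⟩ := hBt b hb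
    refine ⟨?_, ?_⟩
    · rw [← Multiset.card_eq_card_of_rel hrel]
      exact h3
    · have hle : Multiset.Rel (fun x y => x ≤ y) b' b := Multiset.rel_flip.mp hrel
      exact le_trans (Multiset.sum_le_sum_of_rel_le hle) hs
  · rw [hj]
    exact Multiset.le_add_right _ _

/-- Remove `n` leading elements of a list, each of which must be at most `s`. -/
def takeDom (s : ℕ) : ℕ → List ℕ → Option (List ℕ)
  | 0, c => some c
  | _ + 1, [] => none
  | n + 1, x :: c => bif Nat.ble x s then takeDom s n c else none

/-- The items of `ts`, in the listed order, dominate the list `c` pointwise. -/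
def domBy : List (ℕ × ℕ) → List ℕ → Bool
  | [], c => c.isEmpty
  | (s, n) :: r, c =>
      match takeDom s n c with
      | none => false
      | some c' => domBy r c'

theorem takeDom_spec {s : ℕ} : ∀ (n : ℕ) (c c' : List ℕ), takeDom s n c = some c' →
    ∃ pre : List ℕ, c = pre ++ c' ∧
      Multiset.Rel (fun x y => y ≤ x) (Multiset.replicate n s) (↑pre : Multiset ℕ)
  | 0, c, c' => fun h => by
    simp only [takeDom, Option.some.injEq] at h
    subst h
    exact ⟨[], rfl, by simp⟩
  | n + 1, [], c' => fun h => by simp [takeDom] at h
  | n + 1, x :: c, c' => fun h => by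
    simp only [takeDom] at h
    cases hb : Nat.ble x s with
    | false =>
      rw [hb] at h
      simp at h
    | true =>
      rw [hb] at h
      simp only [cond_true] at h
      obtain ⟨pre, rfl, hrel⟩ := takeDom_spec n c c' h
      refine ⟨x :: pre, rfl, ?_⟩
      rw [Multiset.replicate_succ, ← Multiset.cons_coe]
      exact Multiset.Rel.cons (Nat.ble_eq.mp hb) hrel

theorem domBy_spec : ∀ (ts : List (ℕ × ℕ)) (c : List ℕ), domBy ts c = true →
    Multiset.Rel (fun x y => y ≤ x) (items ts) (↑c : Multiset ℕ)
  | [], c => fun h => by
    simp only [domBy, List.isEmpty_iff] at h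
    subst h
    simp
  | (s, n) :: r, c => fun h => by
    simp only [domBy] at h
    cases ht : takeDom s n c with
    | none =>
      rw [ht] at h
      simp at h
    | some c' =>
      rw [ht] at h
      simp only at h
      obtain ⟨pre, rfl, hrel⟩ := takeDom_spec n c c' ht
      rw [items_cons, ← Multiset.coe_add]
      exact Multiset.Rel.add hrel (domBy_spec r c' h)

/-- Some cut with the right number of triples is dominated by the items of `ts`. -/
def cutAny (cuts : List (ℕ × List ℕ)) (ts : List (ℕ × ℕ)) (T : ℕ) : Bool :=
  cuts.any (fun p => Nat.beq p.1 T && domBy ts p.2)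

/-- Every cut is a refuted instance. -/
def CutsOK (L : ℕ) (cuts : List (ℕ × List ℕ)) : Prop :=
  ∀ p ∈ cuts, ¬ TripleMatch L (↑p.2 : Multiset ℕ) p.1

theorem cutsOK_nil (L : ℕ) : CutsOK L [] := by
  intro p hp
  simp at hp

theorem cutsOK_cons {L T : ℕ} {c : List ℕ} {cuts : List (ℕ × List ℕ)}
    (h : ¬ TripleMatch L (↑c : Multiset ℕ) T) (hc : CutsOK L cuts) :
    CutsOK L ((T, c) :: cuts) := by
  intro p hp
  rw [List.mem_cons] at hp
  rcases hp with rfl | hp
  · exact h
  · exact hc p hp

theorem cutAny_sound {L : ℕ} {cuts : List (ℕ × List ℕ)} (hc : CutsOK L cuts)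
    {ts : List (ℕ × ℕ)} {T : ℕ} (h : cutAny cuts ts T = true) :
    ¬ TripleMatch L (items ts) T := by
  intro hTM
  rw [cutAny, List.any_eq_true] at h
  obtain ⟨p, hp, hp2⟩ := h
  rw [Bool.and_eq_true] at hp2
  obtain ⟨h1, h2⟩ := hp2
  have hT : p.1 = T := Nat.eq_of_beq_eq_true h1
  have := tripleMatch_of_rel hTM (domBy_spec ts p.2 h2)
  rw [← hT] at this
  exact hc p hp this

/-- Refutation of the existence of `T` pairwise disjoint triples of items of `ts`, each of
total length at most `L`, with covering weights `ws` and cuts `cuts`; the types must be in
strictly decreasing order of length. -/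
def refuteQ (L : ℕ) (ws : List (List ℕ × ℕ)) (cuts : List (ℕ × List ℕ)) :
    ℕ → List (ℕ × ℕ) → ℕ → Bool
  | 0, _, _ => false
  | fuel + 1, ts, T =>
      match T with
      | 0 => false
      | T' + 1 =>
          ws.any (fun wd => Nat.blt (dotT wd.1 ts) ((T' + 1) * wd.2)) ||
          force (total ts) (fun n =>
            bif Nat.blt n (3 * (T' + 1)) then true
            else
              match takeFirst ts with
              | none => true
              | some (a, ts') =>
                  bif Nat.blt (3 * (T' + 1)) n then refuteQ L ws cuts fuel ts' (T' + 1)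
                  else cutAny cuts ts (T' + 1) ||
                    goY L a (fun res => refuteQ L ws cuts fuel res T') [] ts')

theorem refuteQ_sound {L : ℕ} {ws : List (List ℕ × ℕ)} {cuts : List (ℕ × List ℕ)}
    {ts0 : List (ℕ × ℕ)}
    (hsd : (ts0.map Prod.fst).Pairwise (fun a b => b < a))
    (hws : ∀ wd ∈ ws, CoverValid L ts0 wd) (hcuts : CutsOK L cuts) :
    ∀ (fuel : ℕ) (ts : List (ℕ × ℕ)) (T : ℕ), ts.map Prod.fst = ts0.map Prod.fst →
      items ts ≤ items ts0 → refuteQ L ws cuts fuel ts T = true →
      ¬ TripleMatch L (items ts) T := by
  have hnd : (ts0.map Prod.fst).Nodup := by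
    apply List.Pairwise.imp _ hsd
    intro a b hab
    omega
  intro fuel
  induction fuel with
  | zero =>
    intro ts T _ _ h
    simp [refuteQ] at h
  | succ fuel ih =>
    intro ts T hf hle h
    cases T with
    | zero => simp [refuteQ] at h
    | succ T' =>
      intro hTM
      rw [refuteQ] at h
      rw [Bool.or_eq_true] at h
      rcases h with h | h
      · obtain ⟨B, hBc, hBt, hBj⟩ := hTM
        rw [List.any_eq_true] at h
        obtain ⟨wd, hwd, hlt⟩ := h
        have hlt' : dotT wd.1 ts < (T' + 1) * wd.2 := Nat.blt_eq.mp hlt
        have h1 : dotT wd.1 ts = Wt wd.1 ts0 (items ts) := dotT_eq_Wt wd.1 hnd hf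
        have h2 : Wt wd.1 ts0 B.join ≤ Wt wd.1 ts0 (items ts) := Wt_le _ _ hBj
        have h3 : (B.map (Wt wd.1 ts0)).card • wd.2 ≤ (B.map (Wt wd.1 ts0)).sum := by
          apply Multiset.card_nsmul_le_sum
          intro x hx
          obtain ⟨b, hb, rfl⟩ := Multiset.mem_map.mp hx
          exact hws wd hwd b
            (le_trans (le_join_of_mem hb) (le_trans hBj hle)) (hBt b hb).1 (hBt b hb).2
        rw [Multiset.card_map, smul_eq_mul, ← Wt_join] at h3
        have h4 : (T' + 1) * wd.2 ≤ B.card * wd.2 := Nat.mul_le_mul_right _ hBc
        omega
      · rw [force_eq] at h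
        have hcardts : total ts = (items ts).card := total_eq_card ts
        cases hb1 : Nat.blt (total ts) (3 * (T' + 1)) with
        | true =>
          obtain ⟨B, hBc, hBt, hBj⟩ := hTM
          have hlt := Nat.blt_eq.mp hb1
          have hcj : B.join.card = 3 * B.card :=
            card_join_triples B (fun c hc => (hBt c hc).1)
          have hle2 : B.join.card ≤ (items ts).card := Multiset.card_le_card hBj
          omega
        | false =>
          rw [hb1] at h
          simp only [cond_false] at h
          have hge : 3 * (T' + 1) ≤ total ts := by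
            by_contra hcon
            have : Nat.blt (total ts) (3 * (T' + 1)) = true := Nat.blt_eq.mpr (by omega)
            rw [hb1] at this
            exact Bool.false_ne_true this
          cases hT : takeFirst ts with
          | none =>
            have h0 := takeFirst_none hT
            rw [h0] at hcardts
            simp at hcardts
            omega
          | some p =>
            obtain ⟨a, ts'⟩ := p
            rw [hT] at h
            simp only at h
            obtain ⟨hf', hit⟩ := takeFirst_some hT
            have hsd' : (ts.map Prod.fst).Pairwise (fun a b => b < a) := by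
              rw [hf]
              exact hsd
            have hmax := takeFirst_max hsd' hT
            have hle' : items ts' ≤ items ts0 := by
              refine le_trans ?_ hle
              rw [hit]
              exact Multiset.le_cons_self _ _
            have haM : a ∈ items ts := by
              rw [hit]
              exact Multiset.mem_cons_self _ _
            cases hb2 : Nat.blt (3 * (T' + 1)) (total ts) with
            | true =>
              rw [hb2] at h
              simp only [cond_true] at h
              have hlt := Nat.blt_eq.mp hb2
              have hTM' := tripleMatch_erase_max hTM haM hmax (by omega)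
              rw [hit, Multiset.erase_cons_head] at hTM'
              exact ih ts' (T' + 1) (hf'.trans hf) hle' h hTM'
            | false =>
              rw [hb2] at h
              simp only [cond_false] at h
              rw [Bool.or_eq_true] at h
              rcases h with hcut | h
              · exact cutAny_sound hcuts hcut hTM
              have heq : (items ts).card = 3 * (T' + 1) := by
                have : ¬ 3 * (T' + 1) < total ts := by
                  intro hcon
                  have : Nat.blt (3 * (T' + 1)) (total ts) = true := Nat.blt_eq.mpr hcon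
                  rw [hb2] at this
                  exact Bool.false_ne_true this
                omega
              obtain ⟨B, hBc, hBt, hBj⟩ := perfect_of_tripleMatch hTM heq
              have haB : a ∈ B.join := by
                rw [hBj]
                exact haM
              obtain ⟨b, hb, hab⟩ := Multiset.mem_join.mp haB
              obtain ⟨B', b', hb', hab', hc', hBt', hBj', hsw⟩ :=
                exists_swap_maximal hmax (L - b.sum) B b hb hab hBt hBj le_rfl
              obtain ⟨c, rfl⟩ := Multiset.exists_cons_of_mem hab'
              obtain ⟨hb3, hbL⟩ := hBt' _ hb'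
              rw [Multiset.card_cons] at hb3
              have hc2 : c.card = 2 := by omega
              obtain ⟨p, q, hpq⟩ := Multiset.card_eq_two.mp hc2
              have hex : ∃ y z : ℕ, z ≤ y ∧ c = y ::ₘ {z} := by
                rcases le_total q p with hqp | hpq'
                · exact ⟨p, q, hqp, hpq⟩
                · exact ⟨q, p, hpq', by rw [hpq, Multiset.pair_comm]; rfl⟩
              obtain ⟨y, z, hzy, rfl⟩ := hex
              have hj := join_eq_add_erase hb'
              rw [hBj', hit, Multiset.cons_add] at hj
              have hj2 : items ts' = y ::ₘ {z} + (B'.erase (a ::ₘ y ::ₘ {z})).join :=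
                (Multiset.cons_inj_right a).mp hj
              have hrest : (B'.erase (a ::ₘ y ::ₘ {z})).join = items ts' - y ::ₘ {z} := by
                rw [hj2]
                simp
              have hyz : y ::ₘ {z} ≤ items ts' := by
                rw [hj2]
                exact Multiset.le_add_right _ _
              have hymem : y ∈ items ts' :=
                Multiset.mem_of_le hyz (Multiset.mem_cons_self _ _)
              have hsum : a + y + z ≤ L := by
                simp only [Multiset.sum_cons, Multiset.sum_singleton] at hbL
                omega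
              have hsd'' : (ts'.map Prod.fst).Pairwise (fun a b => b < a) := by
                rw [hf']
                exact hsd'
              have hspec := goY_spec ts' [] h hsd'' (by simp) y z hymem hzy hyz hsum
              simp only [List.reverseAux] at hspec
              rcases hspec with ⟨x', hx', hx'2⟩ | ⟨res, hr1, hr2, hr3⟩
              · rw [← hrest] at hx'
                have hbs : (a ::ₘ y ::ₘ {z}).sum = a + y + z := by
                  simp only [Multiset.sum_cons, Multiset.sum_singleton]
                  omega
                rcases hx'2 with ⟨hlt, hfit⟩ | ⟨hlt, hfit⟩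
                · have := hsw z (by simp) x' hx' hlt
                  omega
                · have := hsw y (by simp) x' hx' hlt
                  omega
              · refine ih res T' (hr1.trans (hf'.trans hf)) ?_ hr3
                  ⟨B'.erase (a ::ₘ y ::ₘ {z}), ?_, ?_, ?_⟩
                · rw [hr2]
                  exact le_trans (Multiset.sub_le_self _ _) hle'
                · rw [Multiset.card_erase_of_mem hb', Nat.pred_eq_sub_one]
                  omega
                · intro c hc
                  exact hBt' c (Multiset.mem_of_mem_erase hc)
                · rw [hr2, hrest]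

/-- The items of `ts` as a flat list. -/
def flat : List (ℕ × ℕ) → List ℕ
  | [] => []
  | (s, n) :: r => List.replicate n s ++ flat r

theorem flat_eq : ∀ ts : List (ℕ × ℕ), (↑(flat ts) : Multiset ℕ) = items ts
  | [] => rfl
  | (s, n) :: r => by
    rw [flat, items_cons, ← Multiset.coe_add, flat_eq r, Multiset.coe_replicate]

/-- Kernel-evaluable check that the items of `ts` (types in strictly decreasing order of
length) do not contain `T` pairwise disjoint triples of total length at most `L` each. -/
def checkQ (L : ℕ) (ws : List (List ℕ × ℕ)) (cuts : List (ℕ × List ℕ)) (ts : List (ℕ × ℕ))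
    (fuel T : ℕ) : Bool :=
  sortedDesc ts && ws.all (fun wd => validC3 L ts wd) && refuteQ L ws cuts fuel ts T

theorem not_tripleMatch_of_checkQ {L : ℕ} {ws : List (List ℕ × ℕ)} {cuts : List (ℕ × List ℕ)}
    {ts : List (ℕ × ℕ)} {fuel T : ℕ} (h : checkQ L ws cuts ts fuel T = true)
    (hcuts : CutsOK L cuts) : ¬ TripleMatch L (items ts) T := by
  simp only [checkQ, Bool.and_eq_true, List.all_eq_true] at h
  obtain ⟨⟨hsd, hws⟩, href⟩ := h
  have hsd' := sortedDesc_spec ts hsd
  have hnd : (ts.map Prod.fst).Nodup := by
    apply List.Pairwise.imp _ hsd'
    intro a b hab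
    omega
  exact refuteQ_sound hsd' (fun wd hwd => validC3_sound hnd (hws wd hwd)) hcuts fuel ts T rfl
    le_rfl href

/-- The same conclusion for an explicitly given flat list of the items; this is the form in
which a refuted instance serves as a cut for a larger one. -/
theorem not_tripleMatch_flat {L : ℕ} {ws : List (List ℕ × ℕ)} {cuts : List (ℕ × List ℕ)}
    {ts : List (ℕ × ℕ)} {fuel T : ℕ} {c : List ℕ} (h : checkQ L ws cuts ts fuel T = true)
    (hc : flat ts = c) (hcuts : CutsOK L cuts) : ¬ TripleMatch L (↑c : Multiset ℕ) T := by
  rw [← hc, flat_eq]
  exact not_tripleMatch_of_checkQ h hcuts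

/-- If all lengths exceed a quarter of the capacity and the items do not contain
`total ts - 2 * K` disjoint fitting triples, they cannot be packed into `K` bins. -/
theorem not_packable_of_checkQ {L : ℕ} {ws : List (List ℕ × ℕ)} {cuts : List (ℕ × List ℕ)}
    {ts : List (ℕ × ℕ)} {fuel K : ℕ}
    (h : checkQ L ws cuts ts fuel (total ts - 2 * K) = true)
    (hall : ts.all (fun t => Nat.blt L (4 * t.1)) = true)
    (hcuts : CutsOK L cuts) : ¬ Packable L (items ts) K := by
  intro hp
  simp only [List.all_eq_true, Nat.blt_eq] at hall
  have hbig : ∀ x ∈ items ts, L < 4 * x := by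
    intro x hx
    obtain ⟨t, ht, rfl⟩ := List.mem_map.mp (mem_items hx)
    exact hall t ht
  have htm := tripleMatch_of_packable hbig hp
  rw [← total_eq_card] at htm
  exact not_tripleMatch_of_checkQ h hcuts htm

end Vale.Agent.Lib.P302.helper49
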