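import Vale.Agent.Lib.P302.helper49.Checker

namespace Vale.Agent.Lib.P302.helper49

theorem force_eq {α : Type} (n : ℕ) (f : ℕ → α) : force n f = f n := by
  cases n <;> rfl

theorem allUpTo_spec {n : ℕ} {f : ℕ → Bool} (h : allUpTo n f = true) :
    ∀ i, i ≤ n → f i = true := by
  induction n with
  | zero =>
    intro i hi
    have hi0 : i = 0 := by omega
    subst hi0
    simpa [allUpTo] using h
  | succ n ih =>
    intro i hi
    simp only [allUpTo, Bool.and_eq_true] at h
    rcases Nat.lt_or_ge i (n + 1) with h1 | h1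
    · exact ih h.2 i (by omega)
    · have hi1 : i = n + 1 := by omega
      subst hi1
      exact h.1

/-- `PatRel sl cap ts sl' cap' res`: `res` arises from `ts` by removing some items, at most
`sl` of them and of total length at most `cap`; `sl'` and `cap'` are what is left of both. -/
inductive PatRel : ℕ → ℕ → List (ℕ × ℕ) → ℕ → ℕ → List (ℕ × ℕ) → Prop
  | nil (sl cap : ℕ) : PatRel sl cap [] sl cap []
  | cons {sl cap s n c : ℕ} {ts : List (ℕ × ℕ)} {sl' cap' : ℕ} {res : List (ℕ × ℕ)}
      (hc : c ≤ n) (hsl : c ≤ sl) (hcap : c * s ≤ cap)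
      (h : PatRel (sl - c) (cap - c * s) ts sl' cap' res) :
      PatRel sl cap ((s, n) :: ts) sl' cap' ((s, n - c) :: res)

theorem PatRel.trivial_of {smin sl cap : ℕ} {ts : List (ℕ × ℕ)} {sl' cap' : ℕ}
    {res : List (ℕ × ℕ)} (h : PatRel sl cap ts sl' cap' res)
    (h0 : sl = 0 ∨ cap < smin) (hs : ∀ t ∈ ts, smin ≤ t.1) :
    sl' = sl ∧ cap' = cap ∧ res = ts := by
  induction h with
  | nil sl cap => exact ⟨rfl, rfl, rfl⟩
  | @cons sl cap s n c ts sl' cap' res hc hsl hcap h ih =>
    have hc0 : c = 0 := by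
      rcases h0 with h0 | h0
      · omega
      · have hs1 : smin ≤ s := hs (s, n) (by simp)
        by_contra hne
        have h1 : 1 ≤ c := Nat.one_le_iff_ne_zero.mpr hne
        have h2 : s ≤ c * s := Nat.le_mul_of_pos_left s h1
        omega
    subst hc0
    simp only [Nat.sub_zero, Nat.zero_mul] at ih ⊢
    obtain ⟨h1, h2, h3⟩ := ih h0 (fun t ht => hs t (List.mem_cons_of_mem _ ht))
    exact ⟨h1, h2, by rw [h3]⟩

theorem allPats_spec (smin : ℕ) : ∀ (ts : List (ℕ × ℕ)) (sl cap : ℕ)
    (k : ℕ → ℕ → List (ℕ × ℕ) → Bool),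
    (∀ t ∈ ts, smin ≤ t.1) → allPats smin sl cap ts k = true →
    ∀ sl' cap' res, PatRel sl cap ts sl' cap' res → k sl' cap' res = true := by
  intro ts
  induction ts with
  | nil =>
    intro sl cap k _ h sl' cap' res hp
    cases hp
    simpa [allPats] using h
  | cons t ts ih =>
    obtain ⟨s, n⟩ := t
    intro sl cap k hs h sl' cap' res hp
    rw [allPats] at h
    by_cases h0 : sl = 0 ∨ cap < smin
    · rw [if_pos h0] at h
      obtain ⟨h1, h2, h3⟩ := hp.trivial_of h0 hs
      rw [h1, h2, h3]
      exact h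
    · rw [if_neg h0] at h
      cases hp with
      | @cons _ _ _ _ c _ _ _ res' hc hsl hcap hp' =>
        have hf := allUpTo_spec h c hc
        simp only [hsl, hcap, and_self, if_true, force_eq] at hf
        exact ih (sl - c) (cap - c * s) _ (fun t ht => hs t (List.mem_cons_of_mem _ ht)) hf
          sl' cap' res' hp'

end Vale.Agent.Lib.P302.helper49
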