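import Vale.Agent.Lib.P302.helper49.Sound

/-!
A fast kernel-evaluable validation of covering weights: three nested loops over the types.
-/

namespace Vale.Agent.Lib.P302.helper49

/-- Attach weights to types (missing weights are zero). -/
def zipW : List (ℕ × ℕ) → List ℕ → List (ℕ × ℕ × ℕ)
  | [], _ => []
  | (s, n) :: ts, [] => (s, n, 0) :: zipW ts []
  | (s, n) :: ts, w :: ws => (s, n, w) :: zipW ts ws

/-- Third loop: every available third item that fits gives total weight at least `D`. -/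
def chk3 (L D s12 w12 : ℕ) : List (ℕ × ℕ × ℕ) → Bool
  | [] => true
  | (s, n, w) :: r =>
      (Nat.beq n 0 || Nat.blt L (s12 + s) || Nat.ble D (w12 + w)) && chk3 L D s12 w12 r

/-- Second loop. -/
def chk2 (L D s1 w1 : ℕ) : List (ℕ × ℕ × ℕ) → Bool
  | [] => true
  | (s, n, w) :: r =>
      (Nat.beq n 0 ||
        ((Nat.blt n 2 || Nat.blt L (s1 + s + s) || Nat.ble D (w1 + w + w)) &&
          force (s1 + s) (fun s12 => force (w1 + w) (fun w12 => chk3 L D s12 w12 r)))) &&
      chk2 L D s1 w1 r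

/-- First loop. -/
def chk1 (L D : ℕ) : List (ℕ × ℕ × ℕ) → Bool
  | [] => true
  | (s, n, w) :: r =>
      (Nat.beq n 0 ||
        ((Nat.blt n 3 || Nat.blt L (s + s + s) || Nat.ble D (w + w + w)) &&
          (Nat.blt n 2 ||
            force (s + s) (fun s12 => force (w + w) (fun w12 => chk3 L D s12 w12 r))) &&
          chk2 L D s w r)) &&
      chk1 L D r

/-- `(w, D)` is a covering weight: every triple of items of `ts0` of total length at most `L`
has weight at least `D` (fast version). -/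
def validC3 (L : ℕ) (ts0 : List (ℕ × ℕ)) (wd : List ℕ × ℕ) : Bool :=
  chk1 L wd.2 (zipW ts0 wd.1)

/-- Number of items selected by `f`. -/
def cntZ (f : ℕ → ℕ) (zs : List (ℕ × ℕ × ℕ)) : ℕ := (zs.map (fun z => f z.1)).sum

/-- Total length selected by `f`. -/
def lenZ (f : ℕ → ℕ) (zs : List (ℕ × ℕ × ℕ)) : ℕ := (zs.map (fun z => f z.1 * z.1)).sum

/-- Total weight selected by `f`. -/
def wtZ (f : ℕ → ℕ) (zs : List (ℕ × ℕ × ℕ)) : ℕ := (zs.map (fun z => z.2.2 * f z.1)).sum

theorem cntZ_cons (f : ℕ → ℕ) (s n w : ℕ) (r : List (ℕ × ℕ × ℕ)) :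
    cntZ f ((s, n, w) :: r) = f s + cntZ f r := by simp [cntZ]

theorem lenZ_cons (f : ℕ → ℕ) (s n w : ℕ) (r : List (ℕ × ℕ × ℕ)) :
    lenZ f ((s, n, w) :: r) = f s * s + lenZ f r := by simp [lenZ]

theorem wtZ_cons (f : ℕ → ℕ) (s n w : ℕ) (r : List (ℕ × ℕ × ℕ)) :
    wtZ f ((s, n, w) :: r) = w * f s + wtZ f r := by simp [wtZ]

theorem chk3_spec (f : ℕ → ℕ) (L D s12 w12 : ℕ) : ∀ r : List (ℕ × ℕ × ℕ),
    chk3 L D s12 w12 r = true → (∀ z ∈ r, f z.1 ≤ z.2.1) → cntZ f r = 1 →
    s12 + lenZ f r ≤ L → D ≤ w12 + wtZ f r := by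
  intro r
  induction r with
  | nil => intro _ _ h; simp [cntZ] at h
  | cons z r ih =>
    obtain ⟨s, n, w⟩ := z
    intro h hf hc hl
    rw [chk3] at h
    simp only [Bool.and_eq_true, Bool.or_eq_true, Nat.beq_eq, Nat.blt_eq,
      Nat.ble_eq] at h
    obtain ⟨hA, hB⟩ := h
    have hfs : f s ≤ n := hf (s, n, w) (by simp)
    rw [cntZ_cons] at hc
    rw [lenZ_cons] at hl
    rw [wtZ_cons]
    have hf' : ∀ z ∈ r, f z.1 ≤ z.2.1 := fun z hz => hf z (List.mem_cons_of_mem _ hz)
    rcases Nat.eq_zero_or_pos (f s) with h0 | h0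
    · rw [h0] at hc hl ⊢
      have := ih hB hf' (by omega) (by omega)
      omega
    · have h1 : f s = 1 := by omega
      rw [h1] at hl ⊢
      rcases hA with (hA | hA) | hA
      · omega
      · omega
      · omega

theorem chk2_spec (f : ℕ → ℕ) (L D s1 w1 : ℕ) : ∀ r : List (ℕ × ℕ × ℕ),
    chk2 L D s1 w1 r = true → (∀ z ∈ r, f z.1 ≤ z.2.1) → cntZ f r = 2 →
    s1 + lenZ f r ≤ L → D ≤ w1 + wtZ f r := by
  intro r
  induction r with
  | nil => intro _ _ h; simp [cntZ] at h
  | cons z r ih =>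
    obtain ⟨s, n, w⟩ := z
    intro h hf hc hl
    rw [chk2] at h
    simp only [Bool.and_eq_true, Bool.or_eq_true, Nat.beq_eq, Nat.blt_eq,
      Nat.ble_eq, force_eq] at h
    obtain ⟨hA, hB⟩ := h
    have hfs : f s ≤ n := hf (s, n, w) (by simp)
    rw [cntZ_cons] at hc
    rw [lenZ_cons] at hl
    rw [wtZ_cons]
    have hf' : ∀ z ∈ r, f z.1 ≤ z.2.1 := fun z hz => hf z (List.mem_cons_of_mem _ hz)
    have hcases : f s = 0 ∨ f s = 1 ∨ f s = 2 := by omega
    rcases hcases with h0 | h1 | h2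
    · rw [h0] at hc hl ⊢
      have := ih hB hf' (by omega) (by omega)
      omega
    · rw [h1] at hl ⊢
      rcases hA with hA | ⟨_, hA⟩
      · omega
      · have := chk3_spec f L D (s1 + s) (w1 + w) r hA hf' (by omega) (by omega)
        omega
    · rw [h2] at hl ⊢
      have hw : 0 ≤ wtZ f r := Nat.zero_le _
      rcases hA with hA | ⟨hA, _⟩
      · omega
      · rcases hA with (hA | hA) | hA
        · omega
        · omega
        · omega

theorem chk1_spec (f : ℕ → ℕ) (L D : ℕ) : ∀ zs : List (ℕ × ℕ × ℕ),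
    chk1 L D zs = true → (∀ z ∈ zs, f z.1 ≤ z.2.1) → cntZ f zs = 3 →
    lenZ f zs ≤ L → D ≤ wtZ f zs := by
  intro zs
  induction zs with
  | nil => intro _ _ h; simp [cntZ] at h
  | cons z r ih =>
    obtain ⟨s, n, w⟩ := z
    intro h hf hc hl
    rw [chk1] at h
    simp only [Bool.and_eq_true, Bool.or_eq_true, Nat.beq_eq, Nat.blt_eq,
      Nat.ble_eq, force_eq] at h
    obtain ⟨hA, hB⟩ := h
    have hfs : f s ≤ n := hf (s, n, w) (by simp)
    rw [cntZ_cons] at hc
    rw [lenZ_cons] at hl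
    rw [wtZ_cons]
    have hf' : ∀ z ∈ r, f z.1 ≤ z.2.1 := fun z hz => hf z (List.mem_cons_of_mem _ hz)
    have hcases : f s = 0 ∨ f s = 1 ∨ f s = 2 ∨ f s = 3 := by omega
    rcases hcases with h0 | h1 | h2 | h3
    · rw [h0] at hc hl ⊢
      have := ih hB hf' (by omega) (by omega)
      omega
    · rw [h1] at hl ⊢
      rcases hA with hA | ⟨⟨_, _⟩, hA⟩
      · omega
      · have := chk2_spec f L D s w r hA hf' (by omega) (by omega)
        omega
    · rw [h2] at hl ⊢
      rcases hA with hA | ⟨⟨_, hA⟩, _⟩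
      · omega
      · rcases hA with hA | hA
        · omega
        · have := chk3_spec f L D (s + s) (w + w) r hA hf' (by omega) (by omega)
          omega
    · rw [h3] at hl ⊢
      rcases hA with hA | ⟨⟨hA, _⟩, _⟩
      · omega
      · rcases hA with (hA | hA) | hA
        · omega
        · omega
        · omega

theorem zipW_bound (f : ℕ → ℕ) : ∀ (ts : List (ℕ × ℕ)) (w : List ℕ),
    (∀ t ∈ ts, f t.1 ≤ t.2) → ∀ z ∈ zipW ts w, f z.1 ≤ z.2.1 := by
  intro ts
  induction ts with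
  | nil => intro w _ z hz; simp [zipW] at hz
  | cons t ts ih =>
    obtain ⟨s, n⟩ := t
    intro w h z hz
    have hs : f s ≤ n := h (s, n) (by simp)
    have h' : ∀ t ∈ ts, f t.1 ≤ t.2 := fun t ht => h t (List.mem_cons_of_mem _ ht)
    cases w with
    | nil =>
      simp only [zipW, List.mem_cons] at hz
      rcases hz with rfl | hz
      · exact hs
      · exact ih [] h' z hz
    | cons a w =>
      simp only [zipW, List.mem_cons] at hz
      rcases hz with rfl | hz
      · exact hs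
      · exact ih w h' z hz

theorem zipW_cnt (f : ℕ → ℕ) : ∀ (ts : List (ℕ × ℕ)) (w : List ℕ),
    cntZ f (zipW ts w) = (ts.map (fun t => f t.1)).sum := by
  intro ts
  induction ts with
  | nil => intro w; simp [zipW, cntZ]
  | cons t ts ih =>
    obtain ⟨s, n⟩ := t
    intro w
    cases w with
    | nil => simp [zipW, cntZ_cons, ih]
    | cons a w => simp [zipW, cntZ_cons, ih]

theorem zipW_len (f : ℕ → ℕ) : ∀ (ts : List (ℕ × ℕ)) (w : List ℕ),
    lenZ f (zipW ts w) = (ts.map (fun t => f t.1 * t.1)).sum := by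
  intro ts
  induction ts with
  | nil => intro w; simp [zipW, lenZ]
  | cons t ts ih =>
    obtain ⟨s, n⟩ := t
    intro w
    cases w with
    | nil => simp [zipW, lenZ_cons, ih]
    | cons a w => simp [zipW, lenZ_cons, ih]

theorem dotT_nil (ts : List (ℕ × ℕ)) : dotT [] ts = 0 := by
  cases ts <;> simp [dotT]

theorem zipW_wt (f : ℕ → ℕ) : ∀ (ts : List (ℕ × ℕ)) (w : List ℕ),
    wtZ f (zipW ts w) = dotT w (ts.map (fun t => (t.1, f t.1))) := by
  intro ts
  induction ts with
  | nil => intro w; cases w <;> simp [zipW, wtZ, dotT]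
  | cons t ts ih =>
    obtain ⟨s, n⟩ := t
    intro w
    cases w with
    | nil =>
      have h := ih []
      rw [dotT_nil] at h
      simp [zipW, wtZ_cons, dotT, h]
    | cons a w => simp [zipW, wtZ_cons, dotT, ih]

theorem validC3_sound {L : ℕ} {ts0 : List (ℕ × ℕ)} {wd : List ℕ × ℕ}
    (hnd : (ts0.map Prod.fst).Nodup) (hv : validC3 L ts0 wd = true) :
    CoverValid L ts0 wd := by
  intro b hb hc hs
  have h1 := chk1_spec b.count L wd.2 (zipW ts0 wd.1) hv
    (zipW_bound b.count ts0 wd.1 (count_le_of_le_items hnd hb))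
    (by rw [zipW_cnt, sum_count_eq_card hnd hb, hc])
    (by rw [zipW_len, sum_count_mul_eq_sum hnd hb]; exact hs)
  rw [zipW_wt] at h1
  exact h1

end Vale.Agent.Lib.P302.helper49
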