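import Vale.Agent.Lib.P302.helper49.Checker

/-!
A faster refutation of the existence of `T` pairwise disjoint fitting triples, for types listed
in strictly decreasing order of length.  It uses two exchange arguments: the unmatched items may
be taken to be the largest ones, and the partners of the largest matched item may be taken to
be as large as possible.
-/

namespace Vale.Agent.Lib.P302.helper49

/-- Number of items. -/
def total : List (ℕ × ℕ) → ℕ
  | [] => 0
  | (_, n) :: r => n + total r

/-- Lengths are strictly decreasing along the list. -/
def sortedDesc : List (ℕ × ℕ) → Bool
  | [] => true
  | (s, _) :: r =>
      (match r with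
        | [] => true
        | (s2, _) :: _ => Nat.blt s2 s) && sortedDesc r

/-- The first type with positive multiplicity and length at most `bound`: its length, and the
types with one such item removed. -/
def firstFit (bound : ℕ) : List (ℕ × ℕ) → Option (ℕ × List (ℕ × ℕ))
  | [] => none
  | (s, 0) :: r => (firstFit bound r).map (fun p => (p.1, (s, 0) :: p.2))
  | (s, n + 1) :: r =>
      bif Nat.ble s bound then some (s, (s, n) :: r)
      else (firstFit bound r).map (fun p => (p.1, (s, n + 1) :: p.2))

/-- Is there, among the types `acc` (nearest first), an available item longer than `y` that
fits together with `a` and `z`?  Only the nearest available type is inspected. -/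
def domAcc (L a y z : ℕ) : List (ℕ × ℕ) → Bool
  | [] => false
  | (_, 0) :: r => domAcc L a y z r
  | (s, _ + 1) :: _ => Nat.blt y s && Nat.ble (a + s + z) L

/-- For each available second item `y` (taken from the second list; the first list is the
reversed part already passed) find the longest available third item `z ≤ y` fitting with `a`
and `y`, and call `k` on the residual types unless the pair is dominated. -/
def goY (L a : ℕ) (k : List (ℕ × ℕ) → Bool) : List (ℕ × ℕ) → List (ℕ × ℕ) → Bool
  | _, [] => true
  | acc, (s, 0) :: r => goY L a k ((s, 0) :: acc) r
  | acc, (s, n + 1) :: r =>
      (bif Nat.blt L (a + s) then true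
       else
        match firstFit (L - (a + s)) ((s, n) :: r) with
        | none => true
        | some (z, suf) => domAcc L a s z acc || k (List.reverseAux acc suf)) &&
      goY L a k ((s, n + 1) :: acc) r

/-- Refutation of the existence of `T` pairwise disjoint triples of items of `ts`, each of
total length at most `L`; the types must be in strictly decreasing order of length. -/
def refuteP (L : ℕ) (ws : List (List ℕ × ℕ)) : ℕ → List (ℕ × ℕ) → ℕ → Bool
  | 0, _, _ => false
  | fuel + 1, ts, T =>
      match T with
      | 0 => false
      | T' + 1 =>
          ws.any (fun wd => Nat.blt (dotT wd.1 ts) ((T' + 1) * wd.2)) ||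
          force (total ts) (fun n =>
            bif Nat.blt n (3 * (T' + 1)) then true
            else
              match takeFirst ts with
              | none => true
              | some (a, ts') =>
                  bif Nat.blt (3 * (T' + 1)) n then refuteP L ws fuel ts' (T' + 1)
                  else goY L a (fun res => refuteP L ws fuel res T') [] ts')

end Vale.Agent.Lib.P302.helper49
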