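import Vale.Agent.Lib.P302.helper49.Enum

namespace Vale.Agent.Lib.P302.helper49

/-- The multiset of all item lengths of an instance given by types `(length, multiplicity)`. -/
def items (ts : List (ℕ × ℕ)) : Multiset ℕ :=
  (ts.map (fun t => Multiset.replicate t.2 t.1)).sum

@[simp] theorem items_nil : items [] = 0 := rfl

@[simp] theorem items_cons (t : ℕ × ℕ) (ts : List (ℕ × ℕ)) :
    items (t :: ts) = Multiset.replicate t.2 t.1 + items ts := by
  simp [items]

theorem mem_items {x : ℕ} {ts : List (ℕ × ℕ)} (h : x ∈ items ts) : x ∈ ts.map Prod.fst := by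
  induction ts with
  | nil => simp at h
  | cons t ts ih =>
    rw [items_cons, Multiset.mem_add] at h
    rcases h with h | h
    · have hx := Multiset.eq_of_mem_replicate h
      simp [hx]
    · simp only [List.map_cons, List.mem_cons]
      exact Or.inr (ih h)

theorem mem_items_of_mem {t : ℕ × ℕ} {ts : List (ℕ × ℕ)} (ht : t ∈ ts) (h0 : t.2 ≠ 0) :
    t.1 ∈ items ts := by
  induction ts with
  | nil => simp at ht
  | cons u ts ih =>
    rw [items_cons, Multiset.mem_add]
    rcases List.mem_cons.mp ht with h | h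
    · subst h
      exact Or.inl (Multiset.mem_replicate.mpr ⟨h0, rfl⟩)
    · exact Or.inr (ih h)

theorem count_items {ts : List (ℕ × ℕ)} (hnd : (ts.map Prod.fst).Nodup) {t : ℕ × ℕ}
    (ht : t ∈ ts) : Multiset.count t.1 (items ts) = t.2 := by
  induction ts with
  | nil => simp at ht
  | cons u ts ih =>
    rw [List.map_cons, List.nodup_cons] at hnd
    rw [items_cons, Multiset.count_add, Multiset.count_replicate]
    rcases List.mem_cons.mp ht with h | h
    · subst h
      have h0 : Multiset.count t.1 (items ts) = 0 :=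
        Multiset.count_eq_zero_of_notMem (fun hm => hnd.1 (mem_items hm))
      simp [h0]
    · have hne : u.1 ≠ t.1 := by
        intro he
        apply hnd.1
        rw [he]
        exact List.mem_map.mpr ⟨t, h, rfl⟩
      simp [hne, ih hnd.2 h]

theorem card_items (ts : List (ℕ × ℕ)) : (items ts).card = (ts.map Prod.snd).sum := by
  induction ts with
  | nil => simp
  | cons t ts ih => simp [ih]

/-- The types left after removing `f s` items of each length `s`. -/
def resid (f : ℕ → ℕ) (ts : List (ℕ × ℕ)) : List (ℕ × ℕ) :=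
  ts.map (fun t => (t.1, t.2 - f t.1))

theorem resid_fst (f : ℕ → ℕ) (ts : List (ℕ × ℕ)) :
    (resid f ts).map Prod.fst = ts.map Prod.fst := by
  simp [resid, Function.comp_def]

theorem patRel_of_fun (f : ℕ → ℕ) : ∀ (ts : List (ℕ × ℕ)) (sl cap : ℕ),
    (∀ t ∈ ts, f t.1 ≤ t.2) → (ts.map (fun t => f t.1)).sum ≤ sl →
    (ts.map (fun t => f t.1 * t.1)).sum ≤ cap →
    PatRel sl cap ts (sl - (ts.map (fun t => f t.1)).sum)
      (cap - (ts.map (fun t => f t.1 * t.1)).sum) (resid f ts) := by
  intro ts
  induction ts with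
  | nil =>
    intro sl cap _ _ _
    simpa [resid] using PatRel.nil sl cap
  | cons t ts ih =>
    obtain ⟨s, n⟩ := t
    intro sl cap h1 h2 h3
    simp only [List.map_cons, List.sum_cons] at h2 h3 ⊢
    have h2' : f s + (ts.map (fun t => f t.1)).sum ≤ sl := h2
    have h3' : f s * s + (ts.map (fun t => f t.1 * t.1)).sum ≤ cap := h3
    have hc : f s ≤ n := h1 (s, n) (by simp)
    have hrec := ih (sl - f s) (cap - f s * s) (fun t ht => h1 t (List.mem_cons_of_mem _ ht))
      (by omega) (by omega)
    have e1 : sl - (f s + (ts.map (fun t => f t.1)).sum)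
        = sl - f s - (ts.map (fun t => f t.1)).sum := by omega
    have e2 : cap - (f s * s + (ts.map (fun t => f t.1 * t.1)).sum)
        = cap - f s * s - (ts.map (fun t => f t.1 * t.1)).sum := by omega
    show PatRel sl cap ((s, n) :: ts) (sl - (f s + (ts.map (fun t => f t.1)).sum))
      (cap - (f s * s + (ts.map (fun t => f t.1 * t.1)).sum)) ((s, n - f s) :: resid f ts)
    rw [e1, e2]
    exact PatRel.cons hc (by omega) (by omega) hrec

theorem count_le_of_le_items {ts : List (ℕ × ℕ)} (hnd : (ts.map Prod.fst).Nodup)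
    {b : Multiset ℕ} (hb : b ≤ items ts) : ∀ t ∈ ts, b.count t.1 ≤ t.2 := by
  intro t ht
  have h := Multiset.count_le_of_le t.1 hb
  rwa [count_items hnd ht] at h

theorem sum_count_eq_card {ts : List (ℕ × ℕ)} (hnd : (ts.map Prod.fst).Nodup)
    {b : Multiset ℕ} (hb : b ≤ items ts) :
    (ts.map (fun t => b.count t.1)).sum = b.card := by
  have h1 : ts.map (fun t => b.count t.1) = (ts.map Prod.fst).map (fun x => b.count x) := by
    simp [Function.comp_def]
  rw [h1, ← List.sum_toFinset _ hnd]
  exact Multiset.sum_count_eq_card (fun a ha => by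
    rw [List.mem_toFinset]
    exact mem_items (Multiset.mem_of_le hb ha))

theorem sum_count_mul_eq_sum {ts : List (ℕ × ℕ)} (hnd : (ts.map Prod.fst).Nodup)
    {b : Multiset ℕ} (hb : b ≤ items ts) :
    (ts.map (fun t => b.count t.1 * t.1)).sum = b.sum := by
  have h1 : ts.map (fun t => b.count t.1 * t.1)
      = (ts.map Prod.fst).map (fun x => b.count x * x) := by
    simp [Function.comp_def]
  have h2 : b.toFinset ⊆ (ts.map Prod.fst).toFinset := by
    intro a ha
    rw [List.mem_toFinset]
    exact mem_items (Multiset.mem_of_le hb (Multiset.mem_toFinset.mp ha))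
  rw [h1, ← List.sum_toFinset _ hnd, Finset.sum_multiset_count_of_subset b _ h2]
  simp [smul_eq_mul]

theorem items_resid {ts : List (ℕ × ℕ)} (hnd : (ts.map Prod.fst).Nodup)
    {b : Multiset ℕ} (_hb : b ≤ items ts) : items (resid b.count ts) = items ts - b := by
  ext x
  rw [Multiset.count_sub]
  have hnd' : ((resid b.count ts).map Prod.fst).Nodup := by
    rw [resid_fst]
    exact hnd
  by_cases hx : x ∈ ts.map Prod.fst
  · obtain ⟨t, ht, rfl⟩ := List.mem_map.mp hx
    have h1 : (t.1, t.2 - b.count t.1) ∈ resid b.count ts := List.mem_map.mpr ⟨t, ht, rfl⟩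
    have h2 := count_items hnd' h1
    simp only at h2
    rw [h2, count_items hnd ht]
  · have h1 : x ∉ items (resid b.count ts) := fun h => hx (by
      rw [← resid_fst b.count ts]
      exact mem_items h)
    have h2 : x ∉ items ts := fun h => hx (mem_items h)
    simp [Multiset.count_eq_zero_of_notMem h1, Multiset.count_eq_zero_of_notMem h2]

theorem patRel_of_le {ts : List (ℕ × ℕ)} (hnd : (ts.map Prod.fst).Nodup)
    {b : Multiset ℕ} (hb : b ≤ items ts) {sl cap : ℕ} (h1 : b.card ≤ sl) (h2 : b.sum ≤ cap) :
    PatRel sl cap ts (sl - b.card) (cap - b.sum) (resid b.count ts) := by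
  have h := patRel_of_fun b.count ts sl cap (count_le_of_le_items hnd hb)
    (by rw [sum_count_eq_card hnd hb]; exact h1)
    (by rw [sum_count_mul_eq_sum hnd hb]; exact h2)
  rwa [sum_count_eq_card hnd hb, sum_count_mul_eq_sum hnd hb] at h

theorem takeFirst_none {ts : List (ℕ × ℕ)} (h : takeFirst ts = none) : items ts = 0 := by
  induction ts with
  | nil => rfl
  | cons t ts ih =>
    obtain ⟨s, n⟩ := t
    cases n with
    | zero =>
      simp only [takeFirst, Option.map_eq_none_iff] at h
      simp [ih h]
    | succ n => simp [takeFirst] at h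

theorem takeFirst_some {ts : List (ℕ × ℕ)} {s : ℕ} {ts' : List (ℕ × ℕ)}
    (h : takeFirst ts = some (s, ts')) :
    ts'.map Prod.fst = ts.map Prod.fst ∧ items ts = s ::ₘ items ts' := by
  induction ts generalizing ts' with
  | nil => simp [takeFirst] at h
  | cons t ts ih =>
    obtain ⟨s0, n⟩ := t
    cases n with
    | zero =>
      simp only [takeFirst, Option.map_eq_some_iff] at h
      obtain ⟨⟨s1, ts1⟩, h1, h2⟩ := h
      simp only [Prod.mk.injEq] at h2
      obtain ⟨rfl, rfl⟩ := h2
      obtain ⟨e1, e2⟩ := ih h1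
      constructor
      · simp [e1]
      · simp [e2]
    | succ n =>
      simp only [takeFirst, Option.some.injEq, Prod.mk.injEq] at h
      obtain ⟨rfl, rfl⟩ := h
      constructor
      · simp
      · simp [Multiset.replicate_succ]

/-- The weight of a multiset of items for a weight vector aligned with the types `ts0`. -/
def Wt (w : List ℕ) (ts0 : List (ℕ × ℕ)) (b : Multiset ℕ) : ℕ :=
  dotT w (ts0.map (fun t => (t.1, b.count t.1)))

theorem Wt_zero (w : List ℕ) (ts0 : List (ℕ × ℕ)) : Wt w ts0 0 = 0 := by
  induction ts0 generalizing w with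
  | nil => cases w <;> simp [Wt, dotT]
  | cons t ts ih =>
    cases w with
    | nil => simp [Wt, dotT]
    | cons a w =>
      have h := ih w
      simp only [Wt, List.map_cons, dotT, Multiset.count_zero] at h ⊢
      rw [h]
      simp

theorem Wt_add (w : List ℕ) (ts0 : List (ℕ × ℕ)) (b1 b2 : Multiset ℕ) :
    Wt w ts0 (b1 + b2) = Wt w ts0 b1 + Wt w ts0 b2 := by
  induction ts0 generalizing w with
  | nil => cases w <;> simp [Wt, dotT]
  | cons t ts ih =>
    cases w with
    | nil => simp [Wt, dotT]
    | cons a w =>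
      have h := ih w
      simp only [Wt, List.map_cons, dotT, Multiset.count_add] at h ⊢
      rw [h]
      ring

theorem Wt_join (w : List ℕ) (ts0 : List (ℕ × ℕ)) (B : Multiset (Multiset ℕ)) :
    Wt w ts0 B.join = (B.map (Wt w ts0)).sum := by
  induction B using Multiset.induction_on with
  | empty => simp [Wt_zero]
  | cons b B ih => simp [Wt_add, ih]

theorem Wt_le (w : List ℕ) (ts0 : List (ℕ × ℕ)) {b1 b2 : Multiset ℕ} (h : b1 ≤ b2) :
    Wt w ts0 b1 ≤ Wt w ts0 b2 := by
  have e : b2 = (b2 - b1) + b1 := (Multiset.sub_add_cancel h).symm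
  rw [e, Wt_add]
  omega

theorem dotT_eq_Wt (w : List ℕ) {ts ts0 : List (ℕ × ℕ)} (hnd : (ts0.map Prod.fst).Nodup)
    (hf : ts.map Prod.fst = ts0.map Prod.fst) : dotT w ts = Wt w ts0 (items ts) := by
  have hnd' : (ts.map Prod.fst).Nodup := by rw [hf]; exact hnd
  have h1 : ts0.map (fun t => (t.1, Multiset.count t.1 (items ts)))
      = (ts0.map Prod.fst).map (fun x => (x, Multiset.count x (items ts))) := by
    simp [Function.comp_def]
  have h2 : (ts.map Prod.fst).map (fun x => (x, Multiset.count x (items ts))) = ts := by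
    rw [List.map_map]
    conv_rhs => rw [← List.map_id ts]
    apply List.map_congr_left
    intro t ht
    simp [count_items hnd' ht]
  rw [Wt, h1, ← hf, h2]

theorem dotT_resid_add (f : ℕ → ℕ) : ∀ (ts : List (ℕ × ℕ)) (w : List ℕ),
    (∀ t ∈ ts, f t.1 ≤ t.2) →
    dotT w (resid f ts) + dotT w (ts.map (fun t => (t.1, f t.1))) = dotT w ts := by
  intro ts
  induction ts with
  | nil => intro w _; cases w <;> simp [resid, dotT]
  | cons t ts ih =>
    obtain ⟨s, n⟩ := t
    intro w h
    cases w with
    | nil => simp [dotT]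
    | cons a w =>
      have h1 := ih w (fun t ht => h t (List.mem_cons_of_mem _ ht))
      have hc : f s ≤ n := h (s, n) (by simp)
      simp only [resid, List.map_cons, dotT] at h1 ⊢
      have e : a * (n - f s) + a * f s = a * n := by
        rw [← Nat.mul_add, Nat.sub_add_cancel hc]
      omega

theorem dotT_resid_add_Wt (w : List ℕ) {ts : List (ℕ × ℕ)} (hnd : (ts.map Prod.fst).Nodup)
    {b : Multiset ℕ} (hb : b ≤ items ts) :
    dotT w (resid b.count ts) + Wt w ts b = dotT w ts :=
  dotT_resid_add b.count ts w (count_le_of_le_items hnd hb)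

end Vale.Agent.Lib.P302.helper49
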