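import Vale.Agent.Lib.P302.helper49.Sem

namespace Vale.Agent.Lib.P302.helper49

/-- `M` can be packed into at most `K` bins of capacity `L`. -/
def Packable (L : ℕ) (M : Multiset ℕ) (K : ℕ) : Prop :=
  ∃ B : Multiset (Multiset ℕ), B.card ≤ K ∧ (∀ b ∈ B, b.sum ≤ L) ∧ B.join = M

/-- `M` contains at least `T` pairwise disjoint triples, each of total length at most `L`. -/
def TripleMatch (L : ℕ) (M : Multiset ℕ) (T : ℕ) : Prop :=
  ∃ B : Multiset (Multiset ℕ), T ≤ B.card ∧ (∀ b ∈ B, b.card = 3 ∧ b.sum ≤ L) ∧ B.join ≤ M

theorem le_join_of_mem {B : Multiset (Multiset ℕ)} {b : Multiset ℕ} (hb : b ∈ B) :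
    b ≤ B.join := by
  rw [← Multiset.cons_erase hb, Multiset.join_cons]
  exact Multiset.le_add_right _ _

theorem validC_sound {L smin : ℕ} {ts0 : List (ℕ × ℕ)} {wd : List ℕ × ℕ}
    (hnd : (ts0.map Prod.fst).Nodup) (hsmin : ∀ t ∈ ts0, smin ≤ t.1)
    (hv : validC L smin ts0 wd = true) {b : Multiset ℕ} (hb : b ≤ items ts0)
    (hc : b.card = 3) (hs : b.sum ≤ L) : wd.2 ≤ Wt wd.1 ts0 b := by
  have hp := patRel_of_le hnd hb (sl := 3) (cap := L) (by omega) hs
  rw [validC, force_eq] at hv
  have hk := allPats_spec smin ts0 3 L _ hsmin hv _ _ _ hp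
  rw [hc] at hk
  simp only [Nat.sub_self, bne_self_eq_false, Bool.false_or, decide_eq_true_eq] at hk
  have h2 := dotT_resid_add_Wt wd.1 hnd hb
  omega

theorem smin_of_fst {smin : ℕ} {ts ts0 : List (ℕ × ℕ)}
    (hsmin : ∀ t ∈ ts0, smin ≤ t.1) (hf : ts.map Prod.fst = ts0.map Prod.fst) :
    ∀ t ∈ ts, smin ≤ t.1 := by
  intro t ht
  have h1 : t.1 ∈ ts0.map Prod.fst := by
    rw [← hf]
    exact List.mem_map.mpr ⟨t, ht, rfl⟩
  obtain ⟨t0, ht0, he⟩ := List.mem_map.mp h1
  rw [← he]
  exact hsmin t0 ht0

/-- Semantic validity of a covering weight: every triple of items of `ts0` of total length at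
most `L` has weight at least `D`. -/
def CoverValid (L : ℕ) (ts0 : List (ℕ × ℕ)) (wd : List ℕ × ℕ) : Prop :=
  ∀ b : Multiset ℕ, b ≤ items ts0 → b.card = 3 → b.sum ≤ L → wd.2 ≤ Wt wd.1 ts0 b

theorem refuteM_sound {L smin : ℕ} {ws : List (List ℕ × ℕ)} {ts0 : List (ℕ × ℕ)}
    (hnd : (ts0.map Prod.fst).Nodup) (hsmin : ∀ t ∈ ts0, smin ≤ t.1)
    (hws : ∀ wd ∈ ws, CoverValid L ts0 wd) :
    ∀ (fuel : ℕ) (ts : List (ℕ × ℕ)) (T : ℕ), ts.map Prod.fst = ts0.map Prod.fst →
      items ts ≤ items ts0 → refuteM L smin ws fuel ts T = true →
      ¬ TripleMatch L (items ts) T := by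
  intro fuel
  induction fuel with
  | zero =>
    intro ts T _ _ h
    simp [refuteM] at h
  | succ fuel ih =>
    intro ts T hf hle h
    cases T with
    | zero => simp [refuteM] at h
    | succ T' =>
      rintro ⟨B, hBc, hBt, hBj⟩
      rw [refuteM] at h
      rw [Bool.or_eq_true] at h
      rcases h with h | h
      · rw [List.any_eq_true] at h
        obtain ⟨wd, hwd, hlt⟩ := h
        have hlt' : dotT wd.1 ts < (T' + 1) * wd.2 := by simpa using hlt
        have h1 : dotT wd.1 ts = Wt wd.1 ts0 (items ts) := dotT_eq_Wt wd.1 hnd hf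
        have h2 : Wt wd.1 ts0 B.join ≤ Wt wd.1 ts0 (items ts) := Wt_le _ _ hBj
        have h3 : (B.map (Wt wd.1 ts0)).card • wd.2 ≤ (B.map (Wt wd.1 ts0)).sum := by
          apply Multiset.card_nsmul_le_sum
          intro x hx
          obtain ⟨b, hb, rfl⟩ := Multiset.mem_map.mp hx
          exact hws wd hwd b
            (le_trans (le_join_of_mem hb) (le_trans hBj hle)) (hBt b hb).1 (hBt b hb).2
        rw [Multiset.card_map, smul_eq_mul, ← Wt_join] at h3
        have h4 : (T' + 1) * wd.2 ≤ B.card * wd.2 := Nat.mul_le_mul_right _ hBc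
        omega
      · cases hT : takeFirst ts with
        | none =>
          have h0 := takeFirst_none hT
          rw [h0] at hBj
          have hB0 : B.join = 0 := le_antisymm hBj (Multiset.zero_le _)
          have hpos : 0 < B.card := by omega
          obtain ⟨b, hb⟩ := Multiset.card_pos_iff_exists_mem.mp hpos
          have hb0 : b ≤ 0 := hB0 ▸ le_join_of_mem hb
          have hb1 : b = 0 := le_antisymm hb0 (Multiset.zero_le _)
          have hb3 := (hBt b hb).1
          rw [hb1] at hb3
          simp at hb3
        | some p =>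
          obtain ⟨s, ts'⟩ := p
          rw [hT] at h
          simp only [Bool.and_eq_true] at h
          obtain ⟨hA, hB⟩ := h
          obtain ⟨hf', hit⟩ := takeFirst_some hT
          have hle' : items ts' ≤ items ts0 := by
            refine le_trans ?_ hle
            rw [hit]
            exact Multiset.le_cons_self _ _
          by_cases hs : s ∈ B.join
          · obtain ⟨b, hb, hsb⟩ := Multiset.mem_join.mp hs
            obtain ⟨b', rfl⟩ := Multiset.exists_cons_of_mem hsb
            obtain ⟨hb3, hbL⟩ := hBt _ hb
            have hbj : B.join = (s ::ₘ b') + (B.erase (s ::ₘ b')).join := by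
              rw [← Multiset.join_cons, Multiset.cons_erase hb]
            rw [Multiset.sum_cons] at hbL
            rw [Multiset.card_cons] at hb3
            have hcard : b'.card = 2 := by omega
            have hsL : ¬ L < s := by omega
            rw [if_neg hsL] at hB
            have hb' : b' ≤ items ts' := by
              have h1 : s ::ₘ b' ≤ s ::ₘ items ts' := by
                rw [← hit]
                exact le_trans (le_join_of_mem hb) hBj
              exact (Multiset.cons_le_cons_iff s).mp h1
            have hnd' : (ts'.map Prod.fst).Nodup := by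
              rw [hf', hf]
              exact hnd
            have hp := patRel_of_le hnd' hb' (sl := 2) (cap := L - s) (by omega) (by omega)
            have hk := allPats_spec smin ts' 2 (L - s) _
              (smin_of_fst hsmin (hf'.trans hf)) hB _ _ _ hp
            rw [hcard] at hk
            simp only [Nat.sub_self, bne_self_eq_false, Bool.false_or] at hk
            have hres : items (resid b'.count ts') = items ts' - b' :=
              items_resid hnd' hb'
            refine ih _ T' ?_ ?_ hk ⟨B.erase (s ::ₘ b'), ?_, ?_, ?_⟩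
            · rw [resid_fst, hf', hf]
            · rw [hres]
              exact le_trans (Multiset.sub_le_self _ _) hle'
            · rw [Multiset.card_erase_of_mem hb, Nat.pred_eq_sub_one]
              omega
            · intro b2 hb2
              exact hBt b2 (Multiset.mem_of_mem_erase hb2)
            · rw [hres]
              have h1 : (s ::ₘ b') + (B.erase (s ::ₘ b')).join ≤ s ::ₘ items ts' := by
                rw [← hbj, ← hit]
                exact hBj
              rw [Multiset.le_iff_count] at h1 ⊢
              intro a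
              have h2 := h1 a
              rw [Multiset.count_sub]
              rw [Multiset.count_add, Multiset.count_cons, Multiset.count_cons] at h2
              omega
          · have h1 : B.join ≤ items ts' := by
              rw [hit] at hBj
              exact (Multiset.le_cons_of_notMem hs).mp hBj
            exact ih ts' (T' + 1) (hf'.trans hf) hle' hA ⟨B, hBc, hBt, h1⟩

end Vale.Agent.Lib.P302.helper49
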